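import Vale.Agent.P011.Pow.MP

/-!
The statement of the induction for one algebra.
-/

open Module NumberField IsDedekindDomain Topology

set_option linter.unusedSectionVars false

namespace Vale.Agent.P011.Tpl.H359

open Vale.Agent.P011.Arith Vale.Agent.P011.Even Vale.Agent.P011.Two Vale.Agent.P011.One
  Vale.Agent.P011.Pow

/-- For the given algebra: the normal subgroups of finite index contain the elements close to one
at finitely many places. -/
def MPat (k K D : Type) [Field k] [NumberField k] [Field K] [StarRing K]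
    [DivisionRing D] [StarRing D] [Algebra k K] [Algebra k D] [Algebra K D] (n : ℕ) : Prop :=
  ∀ (Ω : Type) [Field Ω] [Algebra K Ω] (f : D →ₐ[K] Matrix (Fin n) (Fin n) Ω) (M : ℕ)
    (B : Basis (Fin M) k D) (N : Subgroup (SUD f)) [N.Normal], N.index ≠ 0 →
    ∃ S : Set (Pl k), S.Finite ∧ PF B (GU f) (Im N) S

variable {k K D : Type} [Field k] [NumberField k] [Field K] [NumberField K] [StarRing K]
  [DivisionRing D] [StarRing D] [Algebra k K] [Algebra k D] [Algebra K D] [IsScalarTower k K D]
  {d : kˣ} {s : K} {Ω : Type} [Field Ω] [Algebra K Ω] {n : ℕ}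

/-- The form with the places of `Tdiv`. -/
theorem MPat.tdiv (hMP : MPat k K D n) (hS : Setting k K D d s) (hn : 3 ≤ n)
    (hdeg : finrank K D = n ^ 2)
    (f : D →ₐ[K] Matrix (Fin n) (Fin n) Ω) {M : ℕ} (B : Basis (Fin M) k D)
    (N : Subgroup (SUD f)) [N.Normal] (hi : N.index ≠ 0) :
    PF B (GU f) (Im N) (Tdiv k K D) := by
  obtain ⟨S, hSf, h⟩ := hMP Ω f M B N hi
  exact pf_tdiv hS hn hdeg f B im_sub one_im (fun _ ha _ hb => mul_im ha hb) hi
    (fun x hx => pow_im (fun g => Subgroup.pow_index_mem _ g) hx) hSf h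

/-- The form with the adic topology. -/
theorem MPat.isOpen (hMP : MPat k K D n) (hS : Setting k K D d s) (hn : 3 ≤ n)
    (hdeg : finrank K D = n ^ 2)
    (f : D →ₐ[K] Matrix (Fin n) (Fin n) Ω) (H : Subgroup (SUD f)) (hi : H.index ≠ 0) :
    IsOpen[adicTop (Adiv k K D) (SUD f)] (H : Set (SUD f)) := by
  have hfin := hS.fin
  have hKf : FiniteDimensional k K := Module.finite_of_finrank_pos (by rw [hS.rank]; norm_num)
  have hDf : FiniteDimensional k D := Module.Finite.trans K D
  have : H.FiniteIndex := ⟨hi⟩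
  have hi' : H.normalCore.index ≠ 0 := Subgroup.FiniteIndex.index_ne_zero
  obtain ⟨S, hSf, h⟩ := hMP Ω f _ (finBasis k D) H.normalCore hi'
  refine isOpen_of_pf hS hn hdeg f (finBasis k D) H hi'
    (fun g => H.normalCore_le (Subgroup.pow_index_mem _ g)) hSf (h.mono ?_)
  rintro _ ⟨g, hg, rfl⟩
  exact ⟨g, H.normalCore_le hg, rfl⟩

end Vale.Agent.P011.Tpl.H359
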