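import Vale.Agent.P011.Six.QSixB
import Vale.Agent.P011.Six.H183.QEx
import Vale.Agent.P011.Tpl.H359.MPat

/-!
The base of the induction: degree six.
-/

open Module NumberField IsDedekindDomain Topology

set_option linter.unusedSectionVars false

namespace Vale.Agent.P011.Tpl.H359

open Vale.Agent.P011.Arith Vale.Agent.P011.Even Vale.Agent.P011.Two Vale.Agent.P011.One
  Vale.Agent.P011.Pow

/-- Degree six. -/
theorem mp_six {k K D : Type} [Field k] [NumberField k] [Field K] [NumberField K] [StarRing K]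
    [DivisionRing D] [StarRing D] [Algebra k K] [Algebra k D] [Algebra K D] [IsScalarTower k K D]
    {d : kˣ} {s : K} (hS : Setting k K D d s) (hdeg : finrank K D = 6 ^ 2) (hsg : Sgd K D 6)
    (hG : ∀ v ∈ Adiv k K D, Nat.card (𝓞 k ⧸ v.asIdeal) % 3 ≠ 1) : MPat k K D 6 := by
  intro Ω _ _ f M B N _ hi
  obtain ⟨α, β, i, j, hb⟩ := Six.H183.exists_ij hS hdeg hsg
  exact Six.pf_six_ne hS hdeg hb hG f B N hi

end Vale.Agent.P011.Tpl.H359
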