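import Vale.Agent.P011.Tpl.H359.Abhn
import Vale.Agent.P011.Six.EichB

/-!
The norm theorem with elements close to one, in every degree.
-/

open NumberField IsDedekindDomain Module

set_option linter.unusedSectionVars false

namespace Vale.Agent.P011.Tpl.H359

open Vale.Agent.P011.Arith Vale.Agent.P011.Even
open Vale.Agent.P011.W (Spl HasNrd)
open Vale.Agent.P011.Pow (Ult)

/-- The norm theorem with elements close to one holds in every degree. -/
theorem en_all {K D : Type} [Field K] [NumberField K] [DivisionRing D] [Algebra K D]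
    [FiniteDimensional K D] [Algebra.IsCentral K D] {n : ℕ} (hD : finrank K D = n ^ 2) :
    Six.EN K D n := fun T hT _ γ hγ => eichler_gen hD T hT γ hγ

/-- Unitary elements with given reduced norm near `1`, in every degree. -/
theorem nrd_near {k K D : Type} [Field k] [NumberField k] [Field K] [NumberField K] [StarRing K]
    [DivisionRing D] [StarRing D] [Algebra k K] [Algebra k D] [Algebra K D] [IsScalarTower k K D]
    {d : kˣ} {s : K} {n : ℕ} (hS : Setting k K D d s) (hD : finrank K D = n ^ 2)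
    (T : Set (HeightOneSpectrum (𝓞 K))) (hT : T.Finite) (hTu : ∀ w ∈ T, Ult K D n w)
    (γ : HeightOneSpectrum (𝓞 K) → Z0) (hγ : ∀ w, γ w ≠ 0) :
    ∃ δ : HeightOneSpectrum (𝓞 K) → Z0, (∀ w, δ w ≠ 0) ∧ ∀ ν : K, ν * star ν = 1 →
      (∀ φ : K →+* ℝ, Spl D n φ ∨ 0 < φ ν) →
      (∀ w ∈ T, w.valuation K (ν - 1) < δ w ∧ w.valuation K (star ν - 1) < δ w) →
      ∃ (u : D) (z : K), u * star u = 1 ∧ HasNrd K n u ν ∧ HasNrd K n (u - 1) z ∧
        ∀ w ∈ T, w.valuation K z < γ w := by
  have := hS.fin
  have := hS.cen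
  exact Six.nrd_near_of hS hD (en_all hD) T hT hTu γ hγ

end Vale.Agent.P011.Tpl.H359
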