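import Vale.Agent.P011.Tpl.Defs

/-!
The condition on the signatures in a plain form.
-/

open Matrix

set_option linter.unusedSectionVars false

namespace Vale.Agent.P011.Tpl.H359

open Vale.Agent.P011.RP (RData)

/-- The hermitian matrix of a form of signature `(n - 1, 1)`, in normal form. -/
theorem exists_normal {n : ℕ} {A : Matrix (Fin n) (Fin n) ℂ} (h : Lor A) :
    ∃ (Q : Matrix (Fin n) (Fin n) ℂ) (c : ℂ) (i₀ : Fin n), IsUnit Q ∧ c ≠ 0 ∧
      Q * A * Qᴴ = c • Matrix.diagonal (fun i => if i = i₀ then (-1 : ℂ) else 1) := by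
  obtain ⟨Q, e, i₀, hQ, hA, h0, h1⟩ := h
  have hne : ∀ i, e i ≠ 0 := by
    intro i
    by_cases hi : i = i₀
    · rw [hi]
      exact h0
    · intro h
      have := h1 i hi
      rw [h, zero_mul] at this
      exact lt_irrefl _ this
  obtain ⟨r, hr⟩ : ∃ r : Fin n → ℝ, ∀ i, r i ≠ 0 ∧ r i * e i * r i = SignType.sign (e i) := by
    refine ⟨fun i => (Real.sqrt |e i|)⁻¹, fun i => ?_⟩
    have h2 : 0 < |e i| := abs_pos.mpr (hne i)
    have h3 : Real.sqrt |e i| ≠ 0 := (Real.sqrt_pos.mpr h2).ne'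
    refine ⟨inv_ne_zero h3, ?_⟩
    have h4 : Real.sqrt |e i| * Real.sqrt |e i| = |e i| := Real.mul_self_sqrt h2.le
    have h5 : (SignType.sign (e i) : ℝ) * |e i| = e i := sign_mul_abs (e i)
    have h6 : (SignType.sign (e i) : ℝ) * Real.sqrt |e i| * Real.sqrt |e i| = e i := by
      rw [mul_assoc, h4, h5]
    dsimp only
    field_simp
    rw [sq, mul_comm, ← mul_assoc, h6]
  obtain ⟨R, hR⟩ : ∃ R : Matrix (Fin n) (Fin n) ℂ, R = Matrix.diagonal (fun i => (r i : ℂ)) :=
    ⟨_, rfl⟩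
  have hRu : IsUnit R := by
    rw [hR, Matrix.isUnit_iff_isUnit_det, Matrix.det_diagonal, isUnit_iff_ne_zero]
    exact Finset.prod_ne_zero_iff.mpr fun i _ => by
      exact_mod_cast (hr i).1
  have hRH : Rᴴ = R := by
    rw [hR, Matrix.diagonal_conjTranspose]
    congr 1
    funext i
    simp
  refine ⟨R * Q, -((SignType.sign (e i₀) : ℝ) : ℂ), i₀, hRu.mul hQ, ?_, ?_⟩
  · rw [neg_ne_zero]
    rcases lt_or_gt_of_ne h0 with h | h
    · rw [sign_neg h]
      simp
    · rw [sign_pos h]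
      simp
  · have e1 : R * Q * A * (R * Q)ᴴ = R * (Q * A * Qᴴ) * R := by
      rw [Matrix.conjTranspose_mul, hRH]
      simp only [Matrix.mul_assoc]
    rw [e1, hA, hR, Matrix.diagonal_mul_diagonal, Matrix.diagonal_mul_diagonal,
      ← Matrix.diagonal_smul]
    congr 1
    funext i
    have h7 : ((r i : ℂ)) * (e i : ℂ) * (r i : ℂ) = ((SignType.sign (e i) : ℝ) : ℂ) := by
      rw [← (hr i).2]
      push_cast
      ring
    rw [h7, Pi.smul_apply, smul_eq_mul]
    by_cases hi : i = i₀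
    · rw [if_pos hi, hi]
      ring
    · rw [if_neg hi, mul_one]
      have h8 := h1 i hi
      rcases lt_or_gt_of_ne h0 with h | h
      · have h9 : 0 < e i := by nlinarith
        rw [sign_neg h, sign_pos h9]
        simp
      · have h9 : e i < 0 := by nlinarith
        rw [sign_pos h, sign_neg h9]
        simp

/-- **The plain form of the condition on the signatures.** -/
theorem sgd_of {K D : Type} [Field K] [StarRing K] [DivisionRing D] [StarRing D] [Algebra K D]
    {n : ℕ} (h : ∀ (σ : K →+* ℂ) (g : D →+* Matrix (Fin n) (Fin n) ℂ) (i₀ : Fin n),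
      (∀ z, σ (star z) = star (σ z)) →
      (∀ x, g (algebraMap K D x) = Matrix.scalar (Fin n) (σ x)) →
      ¬ ∀ x, g (star x) = Matrix.diagonal (fun i => if i = i₀ then (-1 : ℂ) else 1) * (g x)ᴴ *
        Matrix.diagonal (fun i => if i = i₀ then (-1 : ℂ) else 1)) : Sgd K D n := by
  intro R hL
  obtain ⟨Q, c, i₀, ⟨q, rfl⟩, hc, hQ⟩ := exists_normal hL
  obtain ⟨J, hJ⟩ : ∃ J : Matrix (Fin n) (Fin n) ℂ, J = Matrix.diagonal
    (fun i => if i = i₀ then (-1 : ℂ) else 1) := ⟨_, rfl⟩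
  have hJJ : J * J = 1 := by
    rw [hJ, Matrix.diagonal_mul_diagonal, ← Matrix.diagonal_one]
    congr 1
    funext i
    split_ifs <;> simp
  rw [← hJ] at hQ
  let g : D →+* Matrix (Fin n) (Fin n) ℂ :=
    { toFun := fun x => (q : Matrix (Fin n) (Fin n) ℂ) * R.f x * (q⁻¹ : (Matrix (Fin n) (Fin n) ℂ)ˣ)
      map_one' := by rw [map_one, mul_one, Units.mul_inv]
      map_mul' := fun x y => by
        rw [map_mul]
        calc _ = (q : Matrix (Fin n) (Fin n) ℂ) * R.f x *
              (((q⁻¹ : (Matrix (Fin n) (Fin n) ℂ)ˣ) : Matrix (Fin n) (Fin n) ℂ) * q) *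
              R.f y * (q⁻¹ : (Matrix (Fin n) (Fin n) ℂ)ˣ) := by
              rw [Units.inv_mul, mul_one]
              simp only [mul_assoc]
          _ = _ := by simp only [mul_assoc]
      map_zero' := by rw [map_zero, mul_zero, zero_mul]
      map_add' := fun x y => by rw [map_add, mul_add, add_mul] }
  have hg : ∀ x, g x = (q : Matrix (Fin n) (Fin n) ℂ) * R.f x *
    (q⁻¹ : (Matrix (Fin n) (Fin n) ℂ)ˣ) := fun _ => rfl
  refine h R.s g i₀ R.hs (fun x => ?_) (fun x => ?_)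
  · rw [hg, R.hf, ← (Matrix.scalar_commute (R.s x) (fun _ => Commute.all _ _)
      (q : Matrix (Fin n) (Fin n) ℂ)).eq, mul_assoc, Units.mul_inv, mul_one]
  · rw [← hJ]
    obtain ⟨q', hq'⟩ : ∃ q' : Matrix (Fin n) (Fin n) ℂ,
      q' = ((q⁻¹ : (Matrix (Fin n) (Fin n) ℂ)ˣ) : Matrix (Fin n) (Fin n) ℂ) := ⟨_, rfl⟩
    have h1 : q' * (q : Matrix (Fin n) (Fin n) ℂ) = 1 := by rw [hq', Units.inv_mul]
    have h2 : (q : Matrix (Fin n) (Fin n) ℂ) * q' = 1 := by rw [hq', Units.mul_inv]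
    have h3 : (q : Matrix (Fin n) (Fin n) ℂ)ᴴ * q'ᴴ = 1 := by
      rw [← Matrix.conjTranspose_mul, h1, Matrix.conjTranspose_one]
    -- the relation with `J`
    have key : g (star x) * J = J * (g x)ᴴ := by
      have e1 : c • (g (star x) * J) = c • (J * (g x)ᴴ) := by
        rw [← mul_smul_comm, ← smul_mul_assoc, ← hQ, hg, hg, ← hq']
        calc _ = (q : Matrix (Fin n) (Fin n) ℂ) * R.f (star x) * (q' * q) * R.A *
              (q : Matrix (Fin n) (Fin n) ℂ)ᴴ := by simp only [mul_assoc]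
          _ = (q : Matrix (Fin n) (Fin n) ℂ) * (R.f (star x) * R.A) *
              (q : Matrix (Fin n) (Fin n) ℂ)ᴴ := by rw [h1, mul_one]; simp only [mul_assoc]
          _ = (q : Matrix (Fin n) (Fin n) ℂ) * R.A * ((R.f x)ᴴ) *
              (q : Matrix (Fin n) (Fin n) ℂ)ᴴ := by rw [R.star_f]; simp only [mul_assoc]
          _ = (q : Matrix (Fin n) (Fin n) ℂ) * R.A * (((q : Matrix (Fin n) (Fin n) ℂ)ᴴ * q'ᴴ) *
              (R.f x)ᴴ) * (q : Matrix (Fin n) (Fin n) ℂ)ᴴ := by
            rw [h3, one_mul]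
          _ = _ := by
            rw [Matrix.conjTranspose_mul, Matrix.conjTranspose_mul]
            simp only [mul_assoc]
      exact smul_right_injective _ hc e1
    rw [← key, mul_assoc, hJJ, mul_one]

end Vale.Agent.P011.Tpl.H359
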