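import Vale.Agent.P011.Pow.CentU
import Vale.Agent.P011.One.AdicDefs
import Vale.Agent.P011.Tpl.Defs

/-!
The statements on the signatures which are used in the induction.
-/

open Module NumberField IsDedekindDomain Topology

set_option linter.unusedSectionVars false

namespace Vale.Agent.P011.Tpl.H359

open Vale.Agent.P011.Arith Vale.Agent.P011.Even Vale.Agent.P011.Two Vale.Agent.P011.One
  Vale.Agent.P011.Pow

/-- The choice of the first square root in degree `2 m`. -/
def StepT (m : ℕ) : Prop :=
  ∀ (k K D : Type) [Field k] [NumberField k] [Field K] [NumberField K] [StarRing K]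
    [DivisionRing D] [StarRing D] [Algebra k K] [Algebra k D] [Algebra K D] [IsScalarTower k K D]
    (d : kˣ) (s : K), Setting k K D d s → finrank K D = (2 * m) ^ 2 → Sgd K D (2 * m) →
    ∃ (a : kˣ) (t : D), t ∈ Xa D a ∧ ¬ IsSquare (a : k) ∧ ¬ IsSquare ((a * d : kˣ) : k) ∧
      (∀ v ∈ Ram k K D (2 * m), a ∉ LS (v.valuation k)) ∧
      (∀ φ : k →+* ℝ, φ d < 0 → 0 < φ a) ∧ (∀ φ : k →+* ℝ, 0 < φ d → φ a < 0) ∧
      (∀ v ∈ Adiv k K D, Odd (WithZero.log (v.valuation k (a : k)))) ∧
      ∀ (L K' C : Type) [Field L] [NumberField L] [Algebra k L] [Field K'] [StarRing K']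
        [NumberField K'] [Algebra K K'] [DivisionRing C] [StarRing C] [Algebra L K'] [Algebra L C]
        [Algebra K' C] [IsScalarTower L K' C] (T : L) (j : C →+* D),
        Setting L K' C (inc k L d) (algebraMap K K' s) → finrank K' C = m ^ 2 →
        IsCent k K D L K' C t a T j → Sgd K' C m

/-- The choice of the second square root in degree `2 m`. -/
def StepS (m : ℕ) : Prop :=
  ∀ (k K D : Type) [Field k] [NumberField k] [Field K] [NumberField K] [StarRing K]
    [DivisionRing D] [StarRing D] [Algebra k K] [Algebra k D] [Algebra K D] [IsScalarTower k K D]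
    (d : kˣ) (s : K), Setting k K D d s → finrank K D = (2 * m) ^ 2 → Sgd K D (2 * m) →
    ∀ (a : kˣ) (t : D), t ∈ Xa D a → ¬ IsSquare (a : k) → ¬ IsSquare ((a * d : kˣ) : k) →
      (∀ φ : k →+* ℝ, φ d < 0 → 0 < φ a) → (∀ φ : k →+* ℝ, 0 < φ d → φ a < 0) →
      ∀ (L K' C : Type) [Field L] [NumberField L] [Algebra k L] [Field K'] [StarRing K']
        [NumberField K'] [Algebra K K'] [DivisionRing C] [StarRing C] [Algebra L K'] [Algebra L C]
        [Algebra K' C] [IsScalarTower L K' C] (T : L) (j : C →+* D),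
        Setting L K' C (inc k L d) (algebraMap K K' s) → finrank K' C = m ^ 2 →
        IsCent k K D L K' C t a T j → Sgd K' C m →
      ∃ N0 : Set (HeightOneSpectrum (𝓞 k)), N0.Finite ∧ Disjoint N0 (Ram k K D (2 * m)) ∧
        ∀ b : kˣ, ¬ IsSquare (algebraMap k L (b : k)) →
          ¬ IsSquare (algebraMap k L ((b * d : kˣ) : k)) → (∀ φ : k →+* ℝ, 0 < φ b) →
          (∀ v ∈ N0, b ∈ LS (v.valuation k)) →
          (∀ v ∈ Ram k K D (2 * m), b ∉ LS (v.valuation k) ∧ a * b ∉ LS (v.valuation k)) →
          ∃ s₂, s₂ ∈ Xa C (inc k L b) ∧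
            ∀ (F F' E : Type) [Field F] [NumberField F] [Algebra k F] [Field F'] [StarRing F']
              [NumberField F'] [Algebra K F'] [DivisionRing E] [StarRing E] [Algebra F F']
              [Algebra F E] [Algebra F' E] [IsScalarTower F F' E] (S : F) (jE : E →+* D),
              Setting F F' E (inc k F d) (algebraMap K F' s) → finrank F' E = m ^ 2 →
              IsCent k K D F F' E (j s₂) b S jE → Sgd F' E m

end Vale.Agent.P011.Tpl.H359
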