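import Vale.Agent.P011.W.Red1
import Vale.Agent.P011.Pow.Ec
import Vale.Agent.P011.One.Frob

/-!
Albert, Brauer, Hasse, Noether in every degree.
-/

open NumberField IsDedekindDomain Polynomial Module

set_option linter.unusedSectionVars false

namespace Vale.Agent.P011.Tpl.H359

open Vale.Agent.P011.Arith (Z0 Pl plAbv plAbv_lt plAbv_inr approx exists_below)
open Vale.Agent.P011.W
open Vale.Agent.P011S (exists_sylow_field exists_galois_split')

variable {F D : Type} [Field F] [NumberField F] [DivisionRing D] [Algebra F D]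
    [FiniteDimensional F D] [Algebra.IsCentral F D] {d : ℕ}

/-- A division algebra which is split over all completions is split, in every degree. -/
theorem abhn_gen (hD : finrank F D = d ^ 2) (E : Type) [Field E] [NumberField E] [Algebra F E]
    (hfin : ∀ w : HeightOneSpectrum (𝓞 E), Spl D d (pl (F := F) E w))
    (hreal : Even d → ∀ ψ : E →+* ℝ, Spl D d (ψ.comp (algebraMap F E))) :
    Spl D d (algebraMap F E) := by
  obtain ⟨n, q, Δ, _, _, _, _, hnq, hn, hΔ, hiff⟩ := exists_part hD E
  have hq1 : q = 1 := by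
    by_contra hne
    obtain ⟨p, hp, hpq⟩ := Nat.exists_prime_and_dvd hne
    have hfact : Fact p.Prime := ⟨hp⟩
    obtain ⟨N, _, _, _, _, ⟨g⟩⟩ := exists_galois_split' (K := E) (D := Δ) hΔ
    obtain ⟨M, hcop, a, ha⟩ := exists_sylow_field (k := E) (N := N) p
    have hfdM : FiniteDimensional E M := inferInstance
    have hchM : CharZero M := charZero_of_injective_algebraMap (algebraMap E M).injective
    have hfdQ : FiniteDimensional ℚ M := Module.Finite.trans E M
    have hnfM : NumberField M := { to_charZero := hchM, to_finiteDimensional := hfdQ }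
    obtain ⟨n', q', Δ', _, _, _, _, hnq', hn', hΔ', hiff'⟩ := exists_part hΔ M
    -- the degree is a power of `p`
    have h1 : Spl Δ' q' (algebraMap M N) := by
      refine (hiff' N (algebraMap M N)).mp ?_
      have h3 : (algebraMap M N).comp (algebraMap E M) = algebraMap E N := by
        ext x
        exact (IsScalarTower.algebraMap_apply E M N _).symm
      rw [h3]
      exact spl_iff.mpr ⟨g⟩
    have h2 : q' ∣ p ^ a := ha ▸ dvd_of_spl hΔ' N h1
    obtain ⟨k, -, rfl⟩ := (Nat.dvd_prime_pow hp).mp h2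
    -- the algebra over `M` is split
    have h4 : Spl Δ' (p ^ k) (algebraMap M M) := by
      refine abhn hp hΔ' M ?_ ?_
      · intro w
        refine (hiff' _ _).mp ?_
        have h5 := (hiff (w.adicCompletion M)
          ((algebraMap M (w.adicCompletion M)).comp (algebraMap E M))).mp (by
          obtain ⟨v, hv⟩ := exists_below (F := E) w
          obtain ⟨g, hg⟩ := completion_map hv
          have h2 := (hfin v).comp g
          have h3 : g.comp (pl (F := F) E v) =
              ((algebraMap M (w.adicCompletion M)).comp (algebraMap E M)).comp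
                (algebraMap F E) :=
            RingHom.ext fun x => hg (algebraMap F E x)
          rwa [h3] at h2)
        exact h5
      · intro hp2 ψ
        refine (hiff' _ _).mp ((hiff _ _).mp (hreal ?_ (ψ.comp (algebraMap E M))))
        rw [← hnq, even_iff_two_dvd]
        exact (hp2 ▸ hpq).mul_left n
    have h6 : (p ^ k : ℕ) ∣ 1 := by
      have h7 := dvd_of_spl hΔ' M h4
      rwa [finrank_self] at h7
    have h8 : p ^ k = 1 := Nat.dvd_one.mp h6
    -- so `M` splits `Δ`
    have h9 : Spl Δ q (algebraMap E M) := by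
      have h10 := (hiff' M (algebraMap M M)).mpr h4
      rwa [Algebra.algebraMap_self, RingHom.id_comp] at h10
    have h10 := dvd_of_spl hΔ M h9
    exact (Nat.Prime.coprime_iff_not_dvd hp).mp (Nat.coprime_comm.mp hcop) (hpq.trans h10)
  subst hq1
  have h1 : Spl Δ 1 (algebraMap E E) := spl_of_maxfield hΔ (finrank_self E) (Algebra.ofId E Δ)
  have h2 := (hiff E (algebraMap E E)).mpr h1
  rwa [Algebra.algebraMap_self, RingHom.id_comp] at h2

/-- The degree is even if the algebra is not split at a real place. -/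
theorem even_of_not_spl {F D : Type} [Field F] [CharZero F] [DivisionRing D] [Algebra F D]
    [FiniteDimensional F D] [Algebra.IsCentral F D] {d : ℕ} (hD : finrank F D = d ^ 2)
    (φ : F →+* ℝ) (h : ¬ Spl D d φ) : Even d := by
  let _ : Algebra F ℝ := φ.toAlgebra
  obtain ⟨n, q, Δ, _, _, _, _, hnq, hn, hΔ, hiff⟩ := exists_part hD ℝ
  have h4 : finrank ℝ Δ ≤ 4 := One.finrank_le_four
  rw [hΔ] at h4
  have hq0 : 0 < q := deg_pos hΔ
  have hq2 : q ≤ 2 := by
    by_contra hcon
    push Not at hcon
    nlinarith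
  rcases (by omega : q = 1 ∨ q = 2) with rfl | rfl
  · exfalso
    have h1 : Spl Δ 1 (algebraMap ℝ ℝ) := spl_of_maxfield hΔ (finrank_self ℝ) (Algebra.ofId ℝ Δ)
    have h2 := (hiff ℝ (algebraMap ℝ ℝ)).mpr h1
    rw [Algebra.algebraMap_self, RingHom.id_comp] at h2
    exact h h2
  · rw [← hnq, even_iff_two_dvd]
    exact Dvd.intro_left n rfl

/-- The element of the algebra attached to a polynomial, in every degree. -/
theorem exists_of_poly (hD : finrank F D = d ^ 2) (f : F[X])
    (hn : f.natDegree = d) (hf : f.Monic)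
    (hfin : ∀ (L : Type) [Field L] [NumberField L] [Algebra F L] (w : HeightOneSpectrum (𝓞 L))
      (ξ : L), aeval ξ f = 0 → Spl D d (pl (F := F) L w))
    (hreal : ∀ (φ : F →+* ℝ) (r : ℝ), (f.map φ).eval r = 0 → Spl D d φ) :
    ∃ t : D, HasNrd F d t ((-1) ^ d * f.coeff 0) ∧
      HasNrd F d (t - 1) ((-1) ^ d * f.eval 1) := by
  have hd : 0 < d := deg_pos hD
  have hnu : ¬ IsUnit f := by
    intro hu
    have := natDegree_eq_zero_of_isUnit hu
    omega
  obtain ⟨g, hgm, hirr, h, hgh⟩ := exists_monic_irreducible_factor f hnu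
  obtain ⟨L, _, _, _, ξ, hξ, hL, hN⟩ := exists_root_field g hgm hirr
  have hfd : FiniteDimensional F L := Module.Finite.of_restrictScalars_finite ℚ F L
  have hξf : aeval ξ f = 0 := by rw [hgh, map_mul, hξ, zero_mul]
  have hspl : Spl D d (algebraMap F L) := by
    refine abhn_gen hD L (fun w => hfin L w ξ hξf) ?_
    intro _ ψ
    refine hreal _ (ψ ξ) ?_
    rw [← Polynomial.map_map, eval_map, eval₂_hom, eval_map_algebraMap, hξf, _root_.map_zero]
  have hdvd := dvd_of_spl hD L hspl
  have hfg : f = g := by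
    refine eq_of_monic_of_dvd_of_natDegree_le hgm hf ⟨h, hgh⟩ ?_
    rw [hn, ← hL]
    exact Nat.le_of_dvd Module.finrank_pos hdvd
  rw [← hfg] at hirr hξ hL
  rw [← hfg, hn] at hN
  have hN1 := Pow.norm_sub_one hf hirr hL hξ
  rw [hn] at hL hN1
  obtain ⟨j⟩ := embed_of_spl hD hL hspl
  refine ⟨j ξ, ?_, ?_⟩
  · rw [← hN]
    exact hasNrd_norm hD hL j ξ
  · rw [← hN1]
    have h2 := hasNrd_norm hD hL j (ξ - 1)
    rwa [map_sub, map_one] at h2

/-- Eichler's norm theorem with control at a finite set of places, in every degree. -/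
theorem eichler_gen (hD : finrank F D = d ^ 2)
    (T : Set (HeightOneSpectrum (𝓞 F))) (hTf : T.Finite) (γ : HeightOneSpectrum (𝓞 F) → Z0)
    (hγ : ∀ v, γ v ≠ 0) :
    ∃ δ : HeightOneSpectrum (𝓞 F) → Z0, (∀ v, δ v ≠ 0) ∧ ∀ y : F, y ≠ 0 →
      (∀ φ : F →+* ℝ, Spl D d φ ∨ 0 < φ y) →
      (∀ v ∈ T, v.valuation F (y - 1) < δ v) →
      ∃ (t : D) (z : F), HasNrd F d t y ∧ HasNrd F d (t - 1) z ∧
        ∀ v ∈ T, v.valuation F z < γ v := by
  classical
  have hd0 : d ≠ 0 := (deg_pos hD).ne'
  choose δ₀ hδ₀0 hδ₀ using fun v : HeightOneSpectrum (𝓞 F) =>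
    Pow.exists_target_near hd0 hD v (hγ v)
  refine ⟨δ₀, hδ₀0, fun y hy hpos hyT => ?_⟩
  obtain ⟨S, hS, hSspl⟩ := spl_almost (deg_pos hD) hD
  have hex : ∀ v : HeightOneSpectrum (𝓞 F), ∃ (Q : F[X]) (g : F), g ≠ 0 ∧
      v.valuation F ((-1) ^ d * y - Q.coeff 0) < v.valuation F g ∧
      (∀ f : F[X], f.Monic → f.natDegree = d →
      (∀ i, i < d → v.valuation F (f.coeff i - Q.coeff i) < v.valuation F g) →
      ∀ (L : Type) [Field L] [NumberField L] [Algebra F L] (w : HeightOneSpectrum (𝓞 L)),
        w.asIdeal.comap (algebraMap (𝓞 F) (𝓞 L)) = v.asIdeal → ∀ ξ : L, aeval ξ f = 0 →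
        Spl D d (pl (F := F) L w)) ∧
      (v ∈ T → ∀ f : F[X], f.Monic → f.natDegree = d →
      (∀ i, i < d → v.valuation F (f.coeff i - Q.coeff i) < v.valuation F g) →
      v.valuation F (f.eval 1) < γ v) := by
    intro v
    by_cases hv : v ∈ T
    · obtain ⟨Q, g, h1, h2, h3, h4⟩ := hδ₀ v y (hyT v hv)
      exact ⟨Q, g, h1, h2, h3, fun _ => h4⟩
    · obtain ⟨Q, g, h1, h2, h3⟩ := exists_target hd0 hD v y hy
      exact ⟨Q, g, h1, h2, h3, fun h => absurd h hv⟩
  choose Q g hg0 hQ hloc hnear using hex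
  let T' : Set (Pl F) := Sum.inl '' (S ∪ T) ∪ Set.range Sum.inr
  have hT' : T'.Finite := ((hS.union hTf).image _).union (Set.finite_range _)
  let δ : Pl F → ℝ := fun q => match q with
    | .inl v => plAbv (.inl v) (g v)
    | .inr φ => if 0 < φ y then min 1 (φ y) / (2 * d) else 1
  have hδ : ∀ q, 0 < δ q := by
    rintro (v | φ)
    · exact (plAbv (.inl v)).pos (hg0 v)
    · change 0 < (if 0 < φ y then min 1 (φ y) / (2 * d) else 1)
      split_ifs with h
      · have hdR : (0 : ℝ) < d := by exact_mod_cast Nat.pos_of_ne_zero hd0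
        have := lt_min one_pos h
        positivity
      · exact one_pos
  have happ : ∀ i : ℕ, ∃ b : F, ∀ q ∈ T', plAbv q (b - (match q with
      | .inl v => (Q v).coeff i
      | .inr _ => 0)) < δ q := fun i => approx T' hT' (fun q => match q with
      | .inl v => (Q v).coeff i
      | .inr _ => 0) δ hδ
  choose b hb using happ
  let β : ℕ → F := fun i => if i = 0 then (-1) ^ d * y else b i
  have hβ0 : β 0 = (-1) ^ d * y := if_pos rfl
  have hβi : ∀ i, i ≠ 0 → β i = b i := fun i hi => if_neg hi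
  let r : F[X] := ∑ i ∈ Finset.range d, C (β i) * X ^ i
  have hrdeg : r.degree < d := by
    rw [← mem_degreeLT]
    refine Submodule.sum_mem _ fun i hi => ?_
    rw [mem_degreeLT]
    refine lt_of_le_of_lt (degree_C_mul_X_pow_le i _) ?_
    exact_mod_cast Finset.mem_range.mp hi
  have hrcoeff : ∀ i, i < d → r.coeff i = β i := by
    intro i hi
    simp only [r, finsetSum_coeff, coeff_C_mul, coeff_X_pow]
    rw [Finset.sum_eq_single i]
    · simp
    · intro j _ hj
      rw [if_neg (Ne.symm hj), mul_zero]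
    · intro h
      exact absurd (Finset.mem_range.mpr hi) h
  let f : F[X] := X ^ d + r
  have hfm : f.Monic := monic_X_pow_add hrdeg
  have hfd : f.natDegree = d := by
    change (X ^ d + r).natDegree = d
    rw [natDegree_add_eq_left_of_degree_lt (by rw [degree_X_pow]; exact hrdeg), natDegree_X_pow]
  have hfc : ∀ i, i < d → f.coeff i = β i := by
    intro i hi
    change (X ^ d + r).coeff i = _
    rw [coeff_add, coeff_X_pow, if_neg hi.ne, zero_add, hrcoeff i hi]
  have hf0 : f.coeff 0 = (-1) ^ d * y := by rw [hfc 0 (Nat.pos_of_ne_zero hd0), hβ0]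
  have hneg : ((-1 : F) ^ d) * (-1) ^ d = 1 := by rw [← mul_pow]; norm_num
  have hclose : ∀ v ∈ S ∪ T, ∀ i, i < d →
      v.valuation F (f.coeff i - (Q v).coeff i) < v.valuation F (g v) := by
    intro v hv i hi
    rw [hfc i hi]
    rcases Nat.eq_zero_or_pos i with rfl | hi0
    · rw [hβ0]
      exact hQ v
    · rw [hβi i hi0.ne']
      exact (plAbv_lt v _ _).mp (hb i (.inl v) (Or.inl ⟨v, hv, rfl⟩))
  have hA : ∀ (L : Type) [Field L] [NumberField L] [Algebra F L] (w : HeightOneSpectrum (𝓞 L))
      (ξ : L), aeval ξ f = 0 → Spl D d (pl (F := F) L w) := by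
    intro L _ _ _ w ξ hξ
    obtain ⟨v, hv⟩ := Arith.exists_below (F := F) w
    by_cases hvS : v ∉ S
    · exact hSspl v hvS L w hv
    · rw [not_not] at hvS
      exact hloc v f hfm hfd (hclose v (Or.inl hvS)) L w hv ξ hξ
  have hB : ∀ (φ : F →+* ℝ) (r : ℝ), (f.map φ).eval r = 0 → Spl D d φ := by
    intro φ s hs
    by_contra hns
    have h := (hpos φ).resolve_left hns
    have hde : Even d := even_of_not_spl hD φ hns
    refine real_no_root hde hd0 h (fun i => φ (β i)) ?_ ?_ s ?_
    · rw [hβ0, hde.neg_one_pow, one_mul]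
    · intro i hi
      have h1 := hb i (.inr φ) (Or.inr ⟨φ, rfl⟩)
      rw [plAbv_inr] at h1
      change |φ (b i - 0)| < (if 0 < φ y then min 1 (φ y) / (2 * d) else 1) at h1
      rw [if_pos h, sub_zero] at h1
      change |φ (β i)| < _
      rw [hβi i hi]
      exact h1
    · rw [← hs]
      change _ = ((X ^ d + ∑ i ∈ Finset.range d, C (β i) * X ^ i).map φ).eval s
      rw [Polynomial.map_add, Polynomial.map_pow, map_X, eval_add, eval_pow, eval_X,
        Polynomial.map_sum, eval_finsetSum]
      congr 1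
      refine Finset.sum_congr rfl fun i _ => ?_
      rw [Polynomial.map_mul, map_C, Polynomial.map_pow, map_X, eval_mul, eval_C, eval_pow,
        eval_X]
  obtain ⟨t, ht, ht1⟩ := exists_of_poly hD f hfd hfm hA hB
  refine ⟨t, (-1) ^ d * f.eval 1, ?_, ht1, fun v hv => ?_⟩
  · rw [hf0, ← mul_assoc, hneg, one_mul] at ht
    exact ht
  · rw [map_mul, map_pow, Valuation.map_neg, map_one, one_pow, one_mul]
    exact hnear v hv f hfm hfd (hclose v (Or.inr hv))

end Vale.Agent.P011.Tpl.H359
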