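import Vale.Agent.P011.D4Y.H64.Odd
import Vale.Agent.P011.Pow.CentT

/-!
Ramified quadratic extensions: the residue field does not change.
-/

open NumberField IsDedekindDomain

set_option linter.unusedSectionVars false

namespace Vale.Agent.P011.Tpl.H359

open Vale.Agent.P011.Arith Vale.Agent.P011.Even Vale.Agent.P011.Two Vale.Agent.P011.One

variable {k L : Type} [Field k] [NumberField k] [Field L] [NumberField L] [Algebra k L]

/-- The residue field of a prime of degree one. -/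
theorem card_eq_of_deg_one {w : HeightOneSpectrum (𝓞 L)} {v : HeightOneSpectrum (𝓞 k)}
    (hw : w.asIdeal.comap (algebraMap (𝓞 k) (𝓞 L)) = v.asIdeal)
    (hf : v.asIdeal.inertiaDeg' w.asIdeal = 1) :
    Nat.card (𝓞 L ⧸ w.asIdeal) = Nat.card (𝓞 k ⧸ v.asIdeal) := by
  have hm := v.isMaximal
  have hmw := w.isMaximal
  let _ : Field (𝓞 k ⧸ v.asIdeal) := Ideal.Quotient.field _
  let _ : Field (𝓞 L ⧸ w.asIdeal) := Ideal.Quotient.field _
  let F : 𝓞 k ⧸ v.asIdeal →+* 𝓞 L ⧸ w.asIdeal :=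
    Ideal.quotientMap w.asIdeal (algebraMap (𝓞 k) (𝓞 L)) (le_of_eq hw.symm)
  symm
  refine Nat.card_congr (Equiv.ofBijective F ⟨F.injective, fun y => ?_⟩)
  obtain ⟨y, rfl⟩ := Ideal.Quotient.mk_surjective y
  obtain ⟨x, hx⟩ := D4Y.exists_res hw hf y
  refine ⟨Ideal.Quotient.mk _ x, ?_⟩
  change Ideal.quotientMap _ _ _ _ = _
  rw [Ideal.quotientMap_mk]
  exact (Ideal.Quotient.eq.mpr hx).symm

/-- A place at which the valuation of `a` is odd ramifies in the extension by the square root. -/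
theorem deg_one_of_odd (h2 : Module.finrank k L = 2) {T : L} {a : kˣ}
    (hTT : T * T = algebraMap k L a) {w : HeightOneSpectrum (𝓞 L)} {v : HeightOneSpectrum (𝓞 k)}
    (hw : w.asIdeal.comap (algebraMap (𝓞 k) (𝓞 L)) = v.asIdeal)
    (hodd : Odd (WithZero.log (v.valuation k (a : k)))) :
    v.asIdeal.inertiaDeg' w.asIdeal = 1 := by
  classical
  have hm := v.isMaximal
  have l1 : w.asIdeal.LiesOver v.asIdeal := ⟨hw.symm⟩
  have hsum := Ideal.sum_ramification_inertia (R := 𝓞 k) (𝓞 L) k L (p := v.asIdeal) v.ne_bot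
  rw [h2] at hsum
  have m1 : w.asIdeal ∈ IsDedekindDomain.primesOverFinset v.asIdeal (𝓞 L) :=
    (IsDedekindDomain.mem_primesOverFinset_iff v.ne_bot _).mpr ⟨w.isPrime, l1⟩
  have hle : v.asIdeal.ramificationIdx' w.asIdeal * v.asIdeal.inertiaDeg' w.asIdeal ≤ 2 := by
    rw [← hsum]
    exact Finset.single_le_sum (f := fun P : Ideal (𝓞 L) =>
      v.asIdeal.ramificationIdx' P * v.asIdeal.inertiaDeg' P) (fun P _ => Nat.zero_le _) m1
  have e1 : v.asIdeal.ramificationIdx' w.asIdeal ≠ 0 :=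
    Ideal.IsDedekindDomain.ramificationIdx'_ne_zero_of_liesOver w.asIdeal v.ne_bot
  have f1 : v.asIdeal.inertiaDeg' w.asIdeal ≠ 0 := Ideal.inertiaDeg'_ne_zero _ _
  have ha0 : v.valuation k (a : k) ≠ 0 := (Valuation.ne_zero_iff _).mpr a.ne_zero
  have hval : w.valuation L T ^ 2 =
      v.valuation k (a : k) ^ v.asIdeal.ramificationIdx' w.asIdeal := by
    rw [HeightOneSpectrum.valuation_liesOver L v w, ← hTT, map_mul, sq]
  have hT0 : w.valuation L T ≠ 0 := by
    intro h0
    rw [h0, zero_pow two_ne_zero] at hval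
    exact pow_ne_zero _ ha0 hval.symm
  have hlog := congrArg WithZero.log hval
  rw [WithZero.log_pow, WithZero.log_pow] at hlog
  have hev : Even (v.asIdeal.ramificationIdx' w.asIdeal) := by
    by_contra hne
    rw [Nat.not_even_iff_odd] at hne
    have h3 : Odd (v.asIdeal.ramificationIdx' w.asIdeal • WithZero.log (v.valuation k (a : k))) := by
      rw [nsmul_eq_mul]
      exact Odd.mul (by exact_mod_cast hne) hodd
    rw [← hlog, nsmul_eq_mul] at h3
    exact (Int.not_odd_iff_even.mpr (by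
      exact Even.mul_right (by decide) _)) h3
  obtain ⟨r, hr⟩ := hev
  have hr0 : r ≠ 0 := by
    rintro rfl
    exact e1 hr
  rw [hr] at hle
  nlinarith [Nat.pos_of_ne_zero hr0, Nat.pos_of_ne_zero f1]

/-- **The residue field at a ramified place.** -/
theorem card_eq_of_odd (h2 : Module.finrank k L = 2) {T : L} {a : kˣ}
    (hTT : T * T = algebraMap k L a) {w : HeightOneSpectrum (𝓞 L)} {v : HeightOneSpectrum (𝓞 k)}
    (hw : w.asIdeal.comap (algebraMap (𝓞 k) (𝓞 L)) = v.asIdeal)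
    (hodd : Odd (WithZero.log (v.valuation k (a : k)))) :
    Nat.card (𝓞 L ⧸ w.asIdeal) = Nat.card (𝓞 k ⧸ v.asIdeal) :=
  card_eq_of_deg_one hw (deg_one_of_odd h2 hTT hw hodd)

end Vale.Agent.P011.Tpl.H359
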