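import Vale.Agent.P011.Pow.LQ
import Vale.Agent.P011.Pow.RamSplit
import Vale.Agent.P011.W.Part

/-!
A quadratic extension halves the local index: if the centralizer of a square root is a division
algebra locally then so is the algebra.
-/

open Module TensorProduct NumberField IsDedekindDomain Polynomial

set_option linter.unusedSectionVars false

namespace Vale.Agent.P011.Tpl.H359

open Vale.Agent.P011.Pow

section mat

variable {R Δ : Type} [Field R] [CharZero R] [DivisionRing Δ] [Algebra R Δ]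

/-- An invariant subspace gives an endomorphism which commutes. -/
theorem exists_comm_end {V : Type} [AddCommGroup V] [Module Δ V] (τ : V →ₗ[Δ] V) {a : R}
    (ha : a ≠ 0) (hτ : ∀ x, τ (τ x) = algebraMap R Δ a • x) (W : Submodule Δ V) (hW0 : W ≠ ⊥)
    (hW1 : W ≠ ⊤) (hW : ∀ x ∈ W, τ x ∈ W) : ∃ q : V →ₗ[Δ] V, (∀ x, q (τ x) = τ (q x)) ∧
      (∃ x, q x ≠ 0) ∧ ∃ y, ∀ x, q x ≠ y := by
  obtain ⟨W', hW'⟩ := exists_isCompl W
  let p0 : V →ₗ[Δ] V := W.projection W' hW'
  have hp1 : ∀ x ∈ W, p0 x = x := fun x hx => Submodule.projection_apply_left hW' ⟨x, hx⟩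
  have hp2 : ∀ x, p0 x ∈ W := fun x => Submodule.projection_apply_mem hW' x
  have hqx : ∀ x, (τ ∘ₗ τ ∘ₗ p0 + τ ∘ₗ p0 ∘ₗ τ : V →ₗ[Δ] V) x = τ (τ (p0 x)) + τ (p0 (τ x)) :=
    fun x => rfl
  have hc : (2 : Δ) * algebraMap R Δ a ≠ 0 := by
    have : CharZero Δ := charZero_of_injective_algebraMap (algebraMap R Δ).injective
    exact mul_ne_zero two_ne_zero ((_root_.map_ne_zero _).mpr ha)
  refine ⟨τ ∘ₗ τ ∘ₗ p0 + τ ∘ₗ p0 ∘ₗ τ, fun x => ?_, ?_, ?_⟩
  · rw [hqx, hqx, map_add, add_comm]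
    congr 1
    · rw [hτ x, map_smul, map_smul, hτ (p0 x), map_smul]
  · obtain ⟨x, hx, hx0⟩ := Submodule.exists_mem_ne_zero_of_ne_bot hW0
    refine ⟨x, ?_⟩
    rw [hqx, hp1 x hx, hp1 _ (hW x hx), hτ, ← two_smul Δ, smul_smul]
    exact smul_ne_zero hc hx0
  · obtain ⟨y, -, hy⟩ := SetLike.exists_of_lt (lt_top_iff_ne_top.mpr hW1)
    refine ⟨y, fun x h => hy ?_⟩
    rw [← h, hqx]
    exact W.add_mem (hW _ (hW _ (hp2 _))) (hW _ (hp2 _))

/-- A proper invariant subspace for a square root. -/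
theorem exists_inv_sub {V : Type} [AddCommGroup V] [Module Δ V] [FiniteDimensional Δ V]
    (τ : V →ₗ[Δ] V) {a : R}
    (hτ : ∀ x, τ (τ x) = algebraMap R Δ a • x)
    (h : 3 ≤ finrank Δ V ∨ (2 ≤ finrank Δ V ∧ ∃ δ : Δ, δ * δ = algebraMap R Δ a)) :
    ∃ W : Submodule Δ V, W ≠ ⊥ ∧ W ≠ ⊤ ∧ ∀ x ∈ W, τ x ∈ W := by
  have hnt : Nontrivial V := by
    apply Module.nontrivial_of_finrank_pos (R := Δ)
    rcases h with h | h <;> omega
  obtain ⟨x0, hx0⟩ := exists_ne (0 : V)
  have key : ∀ (x : V) (δ : Δ), x ≠ 0 → τ x = δ • x → 2 ≤ finrank Δ V →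
      ∃ W : Submodule Δ V, W ≠ ⊥ ∧ W ≠ ⊤ ∧ ∀ x ∈ W, τ x ∈ W := by
    intro x δ hx hτx h2
    refine ⟨Submodule.span Δ {x}, ?_, ?_, ?_⟩
    · rw [ne_eq, Submodule.span_singleton_eq_bot]
      exact hx
    · intro htop
      have h3 := finrank_span_singleton (K := Δ) hx
      rw [htop, finrank_top] at h3
      omega
    · intro y hy
      obtain ⟨c, rfl⟩ := Submodule.mem_span_singleton.mp hy
      rw [map_smul, hτx, smul_smul]
      exact Submodule.mem_span_singleton.mpr ⟨_, rfl⟩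
  rcases h with h | ⟨h2, δ, hδ⟩
  · refine ⟨Submodule.span Δ {x0, τ x0}, ?_, ?_, ?_⟩
    · intro hbot
      have h1 : x0 ∈ Submodule.span Δ {x0, τ x0} := Submodule.subset_span (by simp)
      rw [hbot, Submodule.mem_bot] at h1
      exact hx0 h1
    · intro htop
      have h3 : finrank Δ (Submodule.span Δ ({x0, τ x0} : Set V)) ≤ 2 := by
        classical
        have h4 := finrank_span_finset_le_card (R := Δ) ({x0, τ x0} : Finset V)
        have h5 : ({x0, τ x0} : Finset V).card ≤ 2 := Finset.card_le_two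
        rw [Finset.coe_insert, Finset.coe_singleton] at h4
        exact h4.trans h5
      rw [htop, finrank_top] at h3
      omega
    · intro y hy
      rw [Submodule.mem_span_pair] at hy ⊢
      obtain ⟨c, c', rfl⟩ := hy
      refine ⟨c' * algebraMap R Δ a, c, ?_⟩
      rw [map_add, map_smul, map_smul, hτ, smul_smul, add_comm]
  · by_cases hx : τ x0 + δ • x0 = 0
    · refine key x0 (-δ) hx0 ?_ h2
      rw [neg_smul]
      exact eq_neg_of_add_eq_zero_left hx
    · refine key _ δ hx ?_ h2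
      rw [map_add, map_smul, hτ, smul_add, smul_smul, hδ, add_comm]

/-- **Commuting matrices.** -/
theorem exists_comm_mat {r : ℕ} {T : Matrix (Fin r) (Fin r) Δ} {a : R} (ha : a ≠ 0)
    (hT : T * T = algebraMap R (Matrix (Fin r) (Fin r) Δ) a)
    (h : 3 ≤ r ∨ (2 ≤ r ∧ ∃ δ : Δ, δ * δ = algebraMap R Δ a)) :
    ∃ P : Matrix (Fin r) (Fin r) Δ, P * T = T * P ∧ P ≠ 0 ∧ ¬ IsUnit P := by
  let τ : (Fin r → Δ) →ₗ[Δ] (Fin r → Δ) := T.toLinearMapRight'
  have hτ : ∀ x, τ (τ x) = algebraMap R Δ a • x := by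
    intro x
    change Matrix.toLinearMapRight' T (Matrix.toLinearMapRight' T x) = _
    rw [← Matrix.toLinearMapRight'_mul_apply, hT, Matrix.toLinearMapRight'_apply,
      Matrix.algebraMap_eq_diagonal]
    funext i
    rw [Matrix.vecMul_diagonal, Pi.smul_apply, smul_eq_mul]
    exact (Algebra.commutes a (x i)).symm
  have hfr : finrank Δ (Fin r → Δ) = r := by rw [Module.finrank_fin_fun]
  obtain ⟨W, hW0, hW1, hW⟩ := exists_inv_sub τ hτ (by rw [hfr]; exact h)
  obtain ⟨q, hq, ⟨x, hx⟩, y, hy⟩ := exists_comm_end τ ha hτ W hW0 hW1 hW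
  obtain ⟨P, hP⟩ := Matrix.toLinearMapRight'.surjective q
  refine ⟨P, ?_, ?_, ?_⟩
  · apply Matrix.toLinearMapRight'.injective
    rw [Matrix.toLinearMapRight'_mul, Matrix.toLinearMapRight'_mul, hP]
    refine LinearMap.ext fun x => ?_
    exact (hq x).symm
  · rintro rfl
    rw [map_zero] at hP
    rw [← hP] at hx
    exact hx rfl
  · rintro ⟨u, rfl⟩
    refine hy (Matrix.toLinearMapRight' (u⁻¹ : (Matrix (Fin r) (Fin r) Δ)ˣ).val y) ?_
    rw [← hP, ← Matrix.toLinearMapRight'_mul_apply, Units.inv_mul, Matrix.toLinearMapRight'_one,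
      LinearMap.id_apply]

end mat

/-- **Square roots in a local division algebra of even degree.** -/
theorem exists_sqrt_loc {F : Type} [NontriviallyNormedField F] [IsUltrametricDist F]
    [ProperSpace F] [CharZero F] {Δ : Type} [DivisionRing Δ] [Algebra F Δ]
    [FiniteDimensional F Δ] [Algebra.IsCentral F Δ] {q : ℕ} (hq : finrank F Δ = q ^ 2)
    (h2 : Even q) {E : Type} [Field E] [Algebra F E] {T : E} {a : F}
    (hTT : T * T = algebraMap F E a) (hE : ∀ x : E, ∃ y z : F, x = algebraMap F E y +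
      algebraMap F E z * T) (hEF : finrank F E = 2) :
    ∃ δ : Δ, δ * δ = algebraMap F Δ a := by
  obtain ⟨x, hx0, hxu⟩ := lq (Δ := Δ) hq h2 hEF
  obtain ⟨y, z, rfl⟩ : ∃ y z : Δ, x = (1 : E) ⊗ₜ[F] y + T ⊗ₜ[F] z := by
    clear hx0 hxu
    induction x using TensorProduct.induction_on with
    | zero => exact ⟨0, 0, by rw [tmul_zero, tmul_zero, add_zero]⟩
    | tmul e c =>
      obtain ⟨y, z, rfl⟩ := hE e
      refine ⟨y • c, z • c, ?_⟩
      rw [add_tmul, ← smul_tmul, ← smul_tmul, Algebra.smul_def, Algebra.smul_def, mul_one]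
    | add x y hx hy =>
      obtain ⟨x1, x2, rfl⟩ := hx
      obtain ⟨y1, y2, rfl⟩ := hy
      exact ⟨x1 + y1, x2 + y2, by rw [tmul_add, tmul_add]; abel⟩
  have hz : z ≠ 0 := by
    rintro rfl
    rw [tmul_zero, add_zero] at hx0 hxu
    have hy : y ≠ 0 := by
      rintro rfl
      exact hx0 (tmul_zero _ _)
    apply hxu
    refine ⟨⟨1 ⊗ₜ y, 1 ⊗ₜ y⁻¹, ?_, ?_⟩, rfl⟩
    · rw [Algebra.TensorProduct.tmul_mul_tmul, mul_one, mul_inv_cancel₀ hy]
      rfl
    · rw [Algebra.TensorProduct.tmul_mul_tmul, mul_one, inv_mul_cancel₀ hy]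
      rfl
  obtain ⟨w, hw⟩ : ∃ w, w = z⁻¹ * y := ⟨_, rfl⟩
  have hzw : (1 : E) ⊗ₜ[F] y + T ⊗ₜ[F] z = ((1 : E) ⊗ₜ[F] z) * ((1 : E) ⊗ₜ[F] w + T ⊗ₜ[F] 1) := by
    rw [mul_add, Algebra.TensorProduct.tmul_mul_tmul, Algebra.TensorProduct.tmul_mul_tmul,
      mul_one, one_mul, hw, mul_inv_cancel_left₀ hz]
    simp
  refine ⟨w, ?_⟩
  by_contra hcon
  apply hxu
  rw [hzw]
  have h1 : IsUnit ((1 : E) ⊗ₜ[F] z) := by
    refine ⟨⟨1 ⊗ₜ z, 1 ⊗ₜ z⁻¹, ?_, ?_⟩, rfl⟩
    · rw [Algebra.TensorProduct.tmul_mul_tmul, mul_one, mul_inv_cancel₀ hz]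
      rfl
    · rw [Algebra.TensorProduct.tmul_mul_tmul, mul_one, inv_mul_cancel₀ hz]
      rfl
  refine h1.mul ?_
  obtain ⟨c, hc⟩ : ∃ c, c = w * w - algebraMap F Δ a := ⟨_, rfl⟩
  have hc0 : c ≠ 0 := by
    rw [hc]
    exact sub_ne_zero.mpr hcon
  have hcc : (T * T) ⊗ₜ[F] (1 : Δ) = (1 : E) ⊗ₜ[F] algebraMap F Δ a := by
    rw [hTT, Algebra.algebraMap_eq_smul_one, smul_tmul, ← Algebra.algebraMap_eq_smul_one]
  have e1 : ((1 : E) ⊗ₜ[F] w + T ⊗ₜ[F] 1) * ((1 : E) ⊗ₜ[F] w - T ⊗ₜ[F] 1) =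
      (1 : E) ⊗ₜ[F] c := by
    rw [add_mul, mul_sub, mul_sub]
    simp only [Algebra.TensorProduct.tmul_mul_tmul, mul_one, one_mul]
    rw [hcc, hc, tmul_sub]
    abel
  have e2 : ((1 : E) ⊗ₜ[F] w - T ⊗ₜ[F] 1) * ((1 : E) ⊗ₜ[F] w + T ⊗ₜ[F] 1) =
      (1 : E) ⊗ₜ[F] c := by
    rw [sub_mul, mul_add, mul_add]
    simp only [Algebra.TensorProduct.tmul_mul_tmul, mul_one, one_mul]
    rw [hcc, hc, tmul_sub]
    abel
  have e3 : ((1 : E) ⊗ₜ[F] c) * ((1 : E) ⊗ₜ[F] c⁻¹) = 1 := by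
    rw [Algebra.TensorProduct.tmul_mul_tmul, mul_one, mul_inv_cancel₀ hc0]
    rfl
  have e4 : ((1 : E) ⊗ₜ[F] c⁻¹) * ((1 : E) ⊗ₜ[F] c) = 1 := by
    rw [Algebra.TensorProduct.tmul_mul_tmul, mul_one, inv_mul_cancel₀ hc0]
    rfl
  refine isUnit_iff_exists_and_exists.mpr ⟨⟨((1 : E) ⊗ₜ[F] w - T ⊗ₜ[F] 1) * (1 ⊗ₜ[F] c⁻¹), ?_⟩,
    ⟨(1 ⊗ₜ[F] c⁻¹) * ((1 : E) ⊗ₜ[F] w - T ⊗ₜ[F] 1), ?_⟩⟩
  · rw [← mul_assoc, e1, e3]
  · rw [mul_assoc, e2, e4]

/-- The centralizer over an extension. -/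
theorem cent_ext {K D C F : Type} [Field K] [DivisionRing D] [Algebra K D] [DivisionRing C]
    [Algebra K C] [Field F] [Algebra K F] (jK : C →ₐ[K] D) {t : D}
    (hcen : ∀ y, y * t = t * y ↔ ∃ x, jK x = y) (y : F ⊗[K] D)
    (hy : y * ((1 : F) ⊗ₜ[K] t) = ((1 : F) ⊗ₜ[K] t) * y) :
    ∃ c : F ⊗[K] C, Algebra.TensorProduct.map (AlgHom.id F F) jK c = y := by
  let ad : D →ₗ[K] D := LinearMap.mulRight K t - LinearMap.mulLeft K t
  have had : ∀ x, ad x = x * t - t * x := fun x => rfl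
  have hex : Function.Exact jK.toLinearMap ad := by
    intro x
    rw [had, sub_eq_zero, hcen]
    rfl
  have hex' := Module.Flat.lTensor_exact F hex
  have h1 : ∀ x : F ⊗[K] D, (ad.lTensor F) x = x * ((1 : F) ⊗ₜ[K] t) - ((1 : F) ⊗ₜ[K] t) * x := by
    intro x
    induction x using TensorProduct.induction_on with
    | zero => rw [map_zero, zero_mul, mul_zero, sub_zero]
    | tmul e c =>
      rw [LinearMap.lTensor_tmul, had, Algebra.TensorProduct.tmul_mul_tmul,
        Algebra.TensorProduct.tmul_mul_tmul, mul_one, one_mul, tmul_sub]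
    | add x y hx hy => rw [map_add, hx, hy, add_mul, mul_add]; abel
  obtain ⟨c, hc⟩ := (hex' y).mp (by rw [h1, hy, sub_self])
  exact ⟨c, hc⟩

/-- **A quadratic extension halves the local index.** -/
theorem div_down_core {K D K' C F E : Type} [Field K] [CharZero K] [DivisionRing D] [Algebra K D]
    [FiniteDimensional K D] [Algebra.IsCentral K D] [Field K'] [Algebra K K']
    [DivisionRing C] [Algebra K' C] [FiniteDimensional K' C] {m : ℕ} (hm : Even m) (hm0 : 0 < m)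
    (hdeg : finrank K D = (2 * m) ^ 2) (hdegC : finrank K' C = m ^ 2) (hKK : finrank K K' = 2)
    [NontriviallyNormedField F] [IsUltrametricDist F] [ProperSpace F] [CharZero F] [Algebra K F]
    [Field E] [Algebra K' E] (g : F →+* E)
    (hg : ∀ c : K, g (algebraMap K F c) = algebraMap K' E (algebraMap K K' c)) {T : K'}
    (hE : ∀ x : E, ∃ y z : F, x = g y + g z * algebraMap K' E T) {a : K}
    (hTT : T * T = algebraMap K K' a) (ha : ¬ IsSquare (algebraMap K F a)) (j : C →+* D)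
    (hj : ∀ c : K, j (algebraMap K' C (algebraMap K K' c)) = algebraMap K D c) {t : D}
    (hcen : ∀ y, y * t = t * y ↔ ∃ x, j x = y) (htt : t * t = algebraMap K D a)
    (hdiv : ∀ x : E ⊗[K'] C, x ≠ 0 → IsUnit x) : ∀ x : F ⊗[K] D, x ≠ 0 → IsUnit x := by
  have hfKK : FiniteDimensional K K' := Module.finite_of_finrank_pos (by rw [hKK]; norm_num)
  have ha0 : a ≠ 0 := by
    rintro rfl
    exact ha ⟨0, by rw [map_zero, mul_zero]⟩
  -- the field `E`
  let _ : Algebra F E := g.toAlgebra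
  have hgE : ∀ y, algebraMap F E y = g y := fun _ => rfl
  obtain ⟨TE, hTE⟩ : ∃ TE, TE = algebraMap K' E T := ⟨_, rfl⟩
  rw [← hTE] at hE
  have hTTE : TE * TE = algebraMap F E (algebraMap K F a) := by
    rw [hTE, ← map_mul, hTT, hgE, hg]
  have hTF : ∀ y : F, g y ≠ TE := by
    intro y hy
    apply ha
    refine ⟨y, g.injective ?_⟩
    rw [map_mul, hy, hTTE, hgE]
  have hind : LinearIndependent F ![(1 : E), TE] := by
    rw [LinearIndependent.pair_iff]
    intro p q hpq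
    rw [Algebra.smul_def, Algebra.smul_def, hgE, hgE, mul_one] at hpq
    have hq : q = 0 := by
      by_contra hq
      refine hTF (-(p / q)) ?_
      have hq' : g q ≠ 0 := (_root_.map_ne_zero g).mpr hq
      rw [map_neg, map_div₀]
      field_simp
      linear_combination -hpq
    refine ⟨?_, hq⟩
    rw [hq, map_zero, zero_mul, add_zero] at hpq
    exact (map_eq_zero g).mp hpq
  have hsp : ⊤ ≤ Submodule.span F (Set.range ![(1 : E), TE]) := by
    intro x _
    obtain ⟨y, z, rfl⟩ := hE x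
    rw [Matrix.range_cons, Matrix.range_cons, Matrix.range_empty, Set.union_empty,
      Set.singleton_union, Submodule.mem_span_pair]
    exact ⟨y, z, by rw [Algebra.smul_def, Algebra.smul_def, mul_one]; rfl⟩
  have hEF : finrank F E = 2 := by
    rw [Module.finrank_eq_card_basis (Basis.mk hind hsp), Fintype.card_fin]
  -- the map of the centralizers
  let _ : Algebra K C := ((algebraMap K' C).comp (algebraMap K K')).toAlgebra' fun c x =>
    Algebra.commutes (algebraMap K K' c) x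
  have : IsScalarTower K K' C := IsScalarTower.of_algebraMap_eq fun _ => rfl
  have : FiniteDimensional K C := Module.Finite.trans K' C
  have hKC : finrank K C = 2 * m ^ 2 := by
    rw [← Module.finrank_mul_finrank K K' C, hKK, hdegC]
  let _ : Algebra K (E ⊗[K'] C) := ((algebraMap K' (E ⊗[K'] C)).comp
    (algebraMap K K')).toAlgebra' fun c x => Algebra.commutes (algebraMap K K' c) x
  have halg : ∀ c : K, algebraMap K (E ⊗[K'] C) c = algebraMap K' E (algebraMap K K' c) ⊗ₜ 1 :=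
    fun _ => rfl
  let f1 : F →ₐ[K] E ⊗[K'] C :=
    { (Algebra.TensorProduct.includeLeftRingHom : E →+* E ⊗[K'] C).comp g with
      commutes' := fun c => by
        rw [halg, ← hg]
        rfl }
  have hf1 : ∀ y, f1 y = g y ⊗ₜ 1 := fun _ => rfl
  let f2 : C →ₐ[K] E ⊗[K'] C :=
    { (Algebra.TensorProduct.includeRight : C →ₐ[K'] E ⊗[K'] C).toRingHom with
      commutes' := fun c => by
        change (Algebra.TensorProduct.includeRight : C →ₐ[K'] E ⊗[K'] C)
          (algebraMap K' C (algebraMap K K' c)) = _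
        rw [AlgHom.commutes]
        rfl }
  have hf2 : ∀ y, f2 y = 1 ⊗ₜ y := fun _ => rfl
  let Θ : F ⊗[K] C →ₐ[K] E ⊗[K'] C := Algebra.TensorProduct.lift f1 f2 fun y z => by
    rw [hf1, hf2, Commute, SemiconjBy, Algebra.TensorProduct.tmul_mul_tmul,
      Algebra.TensorProduct.tmul_mul_tmul, mul_one, one_mul, mul_one, one_mul]
  have hΘ : ∀ y z, Θ (y ⊗ₜ z) = g y ⊗ₜ z := by
    intro y z
    change Algebra.TensorProduct.lift f1 f2 _ _ = _
    rw [Algebra.TensorProduct.lift_tmul, hf1, hf2, Algebra.TensorProduct.tmul_mul_tmul, mul_one,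
      one_mul]
  have hsurj : Function.Surjective Θ := by
    intro x
    induction x using TensorProduct.induction_on with
    | zero => exact ⟨0, map_zero _⟩
    | tmul e c =>
      obtain ⟨y, z, rfl⟩ := hE e
      refine ⟨y ⊗ₜ c + z ⊗ₜ (algebraMap K' C T * c), ?_⟩
      rw [map_add, hΘ, hΘ, add_tmul, ← Algebra.smul_def, ← smul_tmul, Algebra.smul_def, mul_comm,
        hTE]
    | add x y hx hy =>
      obtain ⟨x', rfl⟩ := hx
      obtain ⟨y', rfl⟩ := hy
      exact ⟨x' + y', map_add _ _ _⟩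
  have hinj : Function.Injective Θ := by
    have hfdE : FiniteDimensional F E := Module.finite_of_finrank_pos (by rw [hEF]; norm_num)
    have hsm : ∀ (c : F) (x : E ⊗[K'] C), c • x = g c • x := fun c x => by
      rw [← hgE, algebraMap_smul]
    let Λ : F ⊗[K] C →ₗ[F] E ⊗[K'] C :=
      { toFun := Θ
        map_add' := map_add Θ
        map_smul' := fun c x => by
          rw [RingHom.id_apply, Algebra.smul_def, map_mul, Algebra.TensorProduct.algebraMap_apply,
            Algebra.algebraMap_self, RingHom.id_apply, hΘ, hsm, Algebra.smul_def]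
          rfl }
    have hfr : finrank F (F ⊗[K] C) = finrank F (E ⊗[K'] C) := by
      rw [Module.finrank_baseChange, hKC, ← Module.finrank_mul_finrank F E (E ⊗[K'] C), hEF,
        Module.finrank_baseChange, hdegC]
    have hfd2 : FiniteDimensional F (E ⊗[K'] C) := Module.Finite.trans E _
    exact (LinearMap.injective_iff_surjective_of_finrank_eq_finrank (f := Λ) hfr).mpr hsurj
  -- the Wedderburn decomposition
  obtain ⟨r, q, hr0, Δ, _, _, _, _, ψ, hrq, hΔ⟩ := W.exists_part' hdeg F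
  by_contra hcon
  push Not at hcon
  have hr := One.two_le_of_not_unit (ψ : F ⊗[K] D ≃+* Matrix (Fin r) (Fin r) Δ) hcon
  have hor : 3 ≤ r ∨ (2 ≤ r ∧ ∃ δ : Δ, δ * δ = algebraMap F Δ (algebraMap K F a)) := by
    rcases Nat.even_or_odd q with hq | hq
    · exact Or.inr ⟨hr, exists_sqrt_loc hΔ hq hTTE hE hEF⟩
    · left
      by_contra hr3
      have hr2 : r = 2 := by omega
      rw [hr2] at hrq
      have hqm : q = m := by omega
      rw [hqm] at hq
      exact (Nat.not_odd_iff_even.mpr hm) hq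
  have haF : algebraMap K F a ≠ 0 := (_root_.map_ne_zero _).mpr ha0
  have hT2 : ψ ((1 : F) ⊗ₜ[K] t) * ψ ((1 : F) ⊗ₜ[K] t) =
      algebraMap F (Matrix (Fin r) (Fin r) Δ) (algebraMap K F a) := by
    rw [← map_mul, Algebra.TensorProduct.tmul_mul_tmul, mul_one, htt, ← AlgEquiv.commutes ψ,
      Algebra.TensorProduct.algebraMap_apply, Algebra.algebraMap_self, RingHom.id_apply,
      Algebra.algebraMap_eq_smul_one (R := K) (A := D), ← smul_tmul, Algebra.smul_def, mul_one]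
  obtain ⟨P, hP1, hP2, hP3⟩ := exists_comm_mat haF hT2 hor
  let jK : C →ₐ[K] D := { j with commutes' := hj }
  obtain ⟨c, hc⟩ := cent_ext (F := F) jK (t := t) hcen (ψ.symm P) (by
    apply ψ.injective
    rw [map_mul, map_mul, ψ.apply_symm_apply, hP1])
  have hc0 : c ≠ 0 := by
    rintro rfl
    rw [map_zero] at hc
    apply hP2
    rw [← ψ.apply_symm_apply P, ← hc, map_zero]
  have hcu : IsUnit (Θ c) := hdiv _ ((map_ne_zero_iff Θ hinj).mpr hc0)
  have hcu' : IsUnit c := by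
    let e := RingEquiv.ofBijective (Θ : F ⊗[K] C →+* E ⊗[K'] C) ⟨hinj, hsurj⟩
    have h1 : IsUnit (e.symm (e c)) := hcu.map e.symm
    rwa [e.symm_apply_apply] at h1
  apply hP3
  have h2 : IsUnit (ψ.symm P) := by
    rw [← hc]
    exact hcu'.map (Algebra.TensorProduct.map (AlgHom.id F F) jK)
  have h3 := h2.map ψ
  rwa [ψ.apply_symm_apply] at h3

end Vale.Agent.P011.Tpl.H359
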