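import Vale.Agent.P011.Tpl.H359.Down
import Vale.Agent.P011.Pow.CentU

/-!
The places at which the centralizer is a division algebra.
-/

open Module TensorProduct NumberField IsDedekindDomain Polynomial

set_option linter.unusedSectionVars false

namespace Vale.Agent.P011.Tpl.H359

open Vale.Agent.P011.Arith Vale.Agent.P011.Even Vale.Agent.P011.Two Vale.Agent.P011.One
open Vale.Agent.P011.Pow

variable {k K D L K' C : Type} [Field k] [NumberField k] [Field K] [NumberField K] [StarRing K]
  [DivisionRing D] [StarRing D] [Algebra k K] [Algebra k D] [Algebra K D] [IsScalarTower k K D]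
  {d : kˣ} {s : K}
  [Field L] [NumberField L] [Algebra k L] [Field K'] [StarRing K']
  [NumberField K'] [Algebra K K'] [DivisionRing C] [StarRing C] [Algebra L K'] [Algebra L C]
  [Algebra K' C] [IsScalarTower L K' C] {T : L} {j : C →+* D} {t : D} {a : kˣ}

/-- **The algebra is a division algebra at the places below the ones of the centralizer at which
the square root is not in the completion.** -/
theorem tdiv_down (h : IsCent k K D L K' C t a T j) (hS : Setting k K D d s)
    (hS' : Setting L K' C (inc k L d) (algebraMap K K' s)) {m : ℕ} (hm : Even m) (hm2 : 2 ≤ m)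
    (hdeg : finrank K D = (2 * m) ^ 2) (hC : finrank K' C = m ^ 2)
    {w' : HeightOneSpectrum (𝓞 L)}
    (hw' : (Sum.inl w' : Pl L) ∈ Tdiv L K' C) {v : HeightOneSpectrum (𝓞 k)}
    (hv : w'.asIdeal.comap (algebraMap (𝓞 k) (𝓞 L)) = v.asIdeal)
    (ha : a ∉ LS (v.valuation k)) : (Sum.inl v : Pl k) ∈ Tdiv k K D := by
  have i1 := hS.fin
  have i2 := hS.cen
  have i3 := hS'.fin
  have hKc : CharZero K := charZero_of_injective_algebraMap (algebraMap k K).injective
  obtain ⟨v0, hv0, hv0', -⟩ := h.tdiv_over hS hS' hm2 hC hw'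
  obtain rfl : v = v0 := HeightOneSpectrum.ext (hv.symm.trans hv0')
  have hd := ram_split hS (by omega) hdeg hv0
  obtain ⟨w'', hw'', φ', hdiv⟩ := hw'
  obtain rfl : w' = w'' := Sum.inl_injective hw''
  obtain ⟨g, hgc, hg⟩ := completion_map_cont hv
  obtain ⟨θ0, hθ0⟩ := (isSquare_iff v d).mpr hd
  obtain ⟨θ, hθ, hgθ⟩ : ∃ θ : v.adicCompletion k, θ ^ 2 = algebraMap k _ (d : k) ∧
      g θ = φ' (algebraMap K K' s) := by
    have hsq : φ' (algebraMap K K' s) ^ 2 = g θ0 ^ 2 := by
      rw [← map_pow, ← map_pow, hS.sq, ← map_pow, sq θ0, ← hθ0, hg, h.comp, AlgHom.commutes]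
    rcases sq_eq_sq_iff_eq_or_eq_neg.mp hsq with h | h
    · exact ⟨θ0, by rw [hθ0, sq], h.symm⟩
    · exact ⟨-θ0, by rw [hθ0, neg_sq, sq], by rw [map_neg, h]⟩
  obtain ⟨φ, hφ⟩ := exists_lift hS (F := v.adicCompletion k) hθ
  have hk : ∀ c : K, g (φ c) = φ' (algebraMap K K' c) := by
    intro c
    obtain ⟨p, q, rfl⟩ := exists_coord hS c
    rw [map_add, map_mul, map_add, map_mul, AlgHom.commutes, AlgHom.commutes, hg, hg, map_add,
      map_mul, map_add, map_mul, h.comp, h.comp, AlgHom.commutes, AlgHom.commutes, hφ, hgθ]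
  refine ⟨v, rfl, φ, ?_⟩
  let _ : Algebra K (v.adicCompletion k) := (φ : K →+* v.adicCompletion k).toAlgebra
  let _ : Algebra K' (w'.adicCompletion L) := (φ' : K' →+* w'.adicCompletion L).toAlgebra
  let _ := nnf v
  have hloc := isLocF v
  have hps := properSpace_of_isLocF (v.adicCompletion k)
  have hul := hloc.ultra
  have hch := hloc.char
  refine div_down_core (K := K) (D := D) (K' := K') (C := C) (F := v.adicCompletion k)
    (E := w'.adicCompletion L) hm (by omega) hdeg hC h.rkK g hk (T := algebraMap L K' T)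
    (fun x => by
      obtain ⟨y, z, hyz⟩ := completion_span hgc hg h.repL x
      refine ⟨y, z, ?_⟩
      rw [hyz]
      congr 2
      exact (φ'.commutes T).symm) (a := algebraMap k K a) (by
      rw [← map_mul, h.sqT, h.comp]) (fun hsq => ha ((isSquare_iff v a).mp ?_)) j h.jK
    (t := t) h.range (by
      rw [h.sq, ← IsScalarTower.algebraMap_apply]) hdiv
  have h1 : algebraMap K (v.adicCompletion k) (algebraMap k K a) =
      algebraMap k (v.adicCompletion k) a := φ.commutes _
  rwa [h1] at hsq

end Vale.Agent.P011.Tpl.H359
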