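import Vale.Agent.P011.Pow.Numb

/-!
The choice of the numbers `y` and `a'`, with prescribed classes.
-/

open NumberField IsDedekindDomain

namespace Vale.Agent.P011.Tpl.H359

open Vale.Agent.P011.Arith Vale.Agent.P011.Even Vale.Agent.P011.One
open Vale.Agent.P011.Pow hiding exists_numbers

section places

variable {k : Type} [Field k] [NumberField k]

/-- An element of a class modulo squares which is integral and different from one. -/
theorem exists_rep_cl (v : HeightOneSpectrum (𝓞 k)) (c : kˣ) : ∃ z : kˣ,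
    z / c ∈ LS (v.valuation k) ∧ v.valuation k (z : k) ≤ 1 ∧ (z : k) ≠ 1 := by
  have h2 : (2 : k) ≠ 0 := two_ne_zero
  obtain ⟨r, hr1, hr2⟩ : ∃ r : kˣ, v.valuation k (r : k) ≤ 1 ∧
      v.valuation k (r : k) ≤ v.valuation k (c : k)⁻¹ := by
    rcases le_total (v.valuation k (c : k)⁻¹) 1 with h | h
    · refine ⟨c⁻¹, ?_, le_of_eq ?_⟩
      · rwa [Units.val_inv_eq_inv_val]
      · rw [Units.val_inv_eq_inv_val]
    · exact ⟨1, by rw [Units.val_one, map_one], by rw [Units.val_one, map_one]; exact h⟩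
  have hint : v.valuation k ((c * r ^ 2 : kˣ) : k) ≤ 1 := by
    have h0 : v.valuation k (c : k) ≠ 0 := (Valuation.ne_zero_iff _).mpr (Units.ne_zero _)
    rw [Units.val_mul, Units.val_pow_eq_pow_val, map_mul, map_pow, sq, ← mul_assoc]
    refine mul_le_one' ?_ hr1
    calc _ ≤ v.valuation k (c : k) * v.valuation k (c : k)⁻¹ := mul_le_mul' le_rfl hr2
      _ = 1 := by rw [map_inv₀, mul_inv_cancel₀ h0]
  by_cases h5 : ((c * r ^ 2 : kˣ) : k) = 1
  · obtain ⟨two, htwo⟩ : ∃ two : kˣ, (two : k) = 2 := ⟨Units.mk0 2 h2, rfl⟩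
    have h6 : c * r ^ 2 = 1 := Units.ext h5
    have h7 : c * (r * two) ^ 2 = two ^ 2 := by
      rw [mul_pow, ← mul_assoc, h6, one_mul]
    refine ⟨c * (r * two) ^ 2, ?_, ?_, ?_⟩
    · rw [mul_div_cancel_left]
      exact sq_mem_LS _
    · rw [h7, Units.val_pow_eq_pow_val, htwo, map_pow]
      exact pow_le_one' (val_two_le _) 2
    · rw [h7, Units.val_pow_eq_pow_val, htwo]
      norm_num
  · refine ⟨c * r ^ 2, ?_, hint, h5⟩
    rw [mul_div_cancel_left]
    exact sq_mem_LS _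

/-- **The numbers.** -/
theorem exists_numbers (a d : kˣ) (ha : ¬ IsSquare (a : k))
    {R N : Set (HeightOneSpectrum (𝓞 k))} (hR : R.Finite) (hN : N.Finite) (hRN : Disjoint R N)
    (c : HeightOneSpectrum (𝓞 k) → kˣ) (hc : ∀ v ∈ R, c v ∉ LS (v.valuation k) ∧
      a * c v ∉ LS (v.valuation k)) :
    ∃ (S : Set (HeightOneSpectrum (𝓞 k))) (l : HeightOneSpectrum (𝓞 k) → kˣ), S.Finite ∧ R ⊆ S ∧
      ∀ κ : k, (∀ v ∈ S, v.valuation k κ < v.valuation k (l v : k)) → ∃ (y : k) (a' : kˣ), y ≠ 0 ∧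
        (a' : k) = 1 - 2 * y + a * d * y ^ 2 * κ ^ 2 ∧
        (∀ v ∈ R, a' ∉ LS (v.valuation k) ∧ a * a' ∉ LS (v.valuation k)) ∧
        (∀ v ∈ R, a' / c v ∈ LS (v.valuation k)) ∧
        (∀ v ∈ N, a' ∈ LS (v.valuation k)) ∧
        (∀ φ : k →+* ℝ, 0 < φ a' ∧ φ y < 1) ∧
        (∀ (L : Type) [Field L] [NumberField L] [Algebra k L] (T : L), Module.finrank k L = 2 →
          T * T = algebraMap k L a → ¬ IsSquare (algebraMap k L (a' : k)) ∧
            ¬ IsSquare (algebraMap k L ((a' * d : kˣ) : k))) ∧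
        ∀ v ∈ R, ∀ (F : Type) [Field F] [NumberField F] [Algebra k F] (σ : F),
          σ * σ = algebraMap k F a' → ∀ w : HeightOneSpectrum (𝓞 F), Ab w v → 1 + σ ≠ 0 ∧
            w.valuation F (algebraMap k F (y * κ) / (1 + σ)) * w.valuation F 2 ≤
              w.valuation F (algebraMap k F κ) := by
  classical
  obtain ⟨v₁, hv₁⟩ := exists_out (hR.union hN)
  obtain ⟨v₂, hv₂⟩ := exists_out ((hR.union hN).union (Set.finite_singleton v₁))
  simp only [Set.mem_union, not_or, Set.mem_singleton_iff] at hv₁ hv₂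
  obtain ⟨⟨hv₂R, hv₂N⟩, hv₂₁⟩ := hv₂
  obtain ⟨hv₁R, hv₁N⟩ := hv₁
  -- the classes
  have hzex : ∀ v : HeightOneSpectrum (𝓞 k), ∃ z : kˣ,
      z * (if v = v₂ then d else 1) ∉ LS (v.valuation k) ∧
      a * (z * (if v = v₂ then d else 1)) ∉ LS (v.valuation k) ∧ v.valuation k (z : k) ≤ 1 ∧
      (z : k) ≠ 1 ∧ (v ∈ R → z / c v ∈ LS (v.valuation k)) := by
    intro v
    by_cases hv : v ∈ R
    · have hne : v ≠ v₂ := by
        rintro rfl
        exact hv₂R hv
      obtain ⟨z, h1, h2, h3⟩ := exists_rep_cl v (c v)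
      rw [if_neg hne]
      refine ⟨z, fun h => (hc v hv).1 ?_, fun h => (hc v hv).2 ?_, h2, h3, fun _ => h1⟩
      · rw [mul_one] at h
        have h4 := (LS (v.valuation k)).div_mem h h1
        rwa [div_div_cancel] at h4
      · rw [mul_one] at h
        have h4 := (LS (v.valuation k)).div_mem h h1
        rwa [mul_div_assoc, div_div_cancel] at h4
    · obtain ⟨z, h1, h2, h3, h4⟩ := exists_rep v a (if v = v₂ then d else 1)
      exact ⟨z, h1, h2, h3, h4, fun h => absurd h hv⟩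
  choose z hz1 hz2 hz3 hz4 hz5 using hzex
  choose l γ hγ hlγ using fun v : HeightOneSpectrum (𝓞 k) => loc_target v (a * d) (z v) (hz4 v)
  obtain ⟨S, hSd⟩ : ∃ S : Set (HeightOneSpectrum (𝓞 k)), S = R ∪ {v₁, v₂} := ⟨_, rfl⟩
  have hSf : S.Finite := by
    rw [hSd]
    exact hR.union ((Set.finite_singleton v₂).insert v₁)
  have hSN : ∀ v ∈ S, v ∉ N := by
    intro v hv hvN
    rw [hSd] at hv
    rcases hv with hv | hv | hv
    · exact Set.disjoint_left.mp hRN hv hvN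
    · exact hv₁N (hv ▸ hvN)
    · exact hv₂N ((Set.mem_singleton_iff.mp hv) ▸ hvN)
  have hS₁ : v₁ ∈ S := by rw [hSd]; exact Or.inr (Or.inl rfl)
  have hS₂ : v₂ ∈ S := by rw [hSd]; exact Or.inr (Or.inr rfl)
  refine ⟨S, l, hSf, by rw [hSd]; exact Set.subset_union_left, fun κ hκ => ?_⟩
  choose δ hδ hδ' using fun v : HeightOneSpectrum (𝓞 k) => loc_zero v (a * d) κ
  -- the real places
  have hreal : ∀ φ : k →+* ℝ, ∃ ε : ℝ, 0 < ε ∧ ε ≤ 1 ∧ ∀ y : ℝ, |y| < ε →
      0 < 1 - 2 * y + φ (a * d * κ ^ 2) * y ^ 2 := by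
    intro φ
    obtain ⟨ε, hε, h3⟩ := real_near_zero (c := φ (a * d * κ ^ 2))
    exact ⟨min ε 1, lt_min hε one_pos, min_le_right _ _,
      fun y hy => h3 y (hy.trans_le (min_le_left _ _))⟩
  choose ε hε hε1 hy using hreal
  obtain ⟨ε₀, hε₀, hmin⟩ : ∃ ε₀ : ℝ, 0 < ε₀ ∧ ∀ φ, ε₀ ≤ ε φ := by
    rcases isEmpty_or_nonempty (k →+* ℝ) with h | h
    · exact ⟨1, one_pos, fun φ => (h.false φ).elim⟩
    · obtain ⟨φ₀, h⟩ := Finite.exists_min ε
      exact ⟨ε φ₀, hε φ₀, h⟩
  obtain ⟨y, hy1, hy2⟩ := exists_app (hSf.union hN)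
    (fun v => if v ∈ S then (1 - (z v : k)) / 2 else 0)
    (fun v => if v ∈ S then γ v else δ v) (fun v _ => by
      by_cases h : v ∈ S
      · rw [if_pos h]
        exact hγ v
      · rw [if_neg h]
        exact hδ v) (fun _ => 0) hε₀
  have hyS : ∀ v ∈ S, v.valuation k (y - (1 - (z v : k)) / 2) < γ v := by
    intro v hv
    have := hy1 v (Or.inl hv)
    rwa [if_pos hv, if_pos hv] at this
  have hyN : ∀ v ∈ N, v.valuation k y < δ v := by
    intro v hv
    have h3 : v ∉ S := fun h => hSN v h hv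
    have := hy1 v (Or.inr hv)
    rwa [if_neg h3, if_neg h3, sub_zero] at this
  have key : ∀ v ∈ S, v.valuation k y = v.valuation k ((1 - (z v : k)) / 2) ∧
      v.valuation k (((a * d : kˣ) : k) * y ^ 2 * κ ^ 2) < v.valuation k (2 * y) ∧
      v.valuation k (1 - 2 * y + ((a * d : kˣ) : k) * y ^ 2 * κ ^ 2 - z v) <
        v.valuation k 4 * v.valuation k (z v : k) := fun v hv => hlγ v κ y (hκ v hv) (hyS v hv)
  have hzv : ∀ v ∈ S, v.valuation k (1 - 2 * y + ((a * d : kˣ) : k) * y ^ 2 * κ ^ 2) =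
      v.valuation k (z v : k) := by
    intro v hv
    have h3 : v.valuation k (1 - 2 * y + ((a * d : kˣ) : k) * y ^ 2 * κ ^ 2 - z v) <
        v.valuation k (z v : k) :=
      (key v hv).2.2.trans_le ((mul_le_mul' (val_four_le _) le_rfl).trans (one_mul _).le)
    have h4 := Valuation.map_add_eq_of_lt_left (v.valuation k) h3
    rwa [add_sub_cancel] at h4
  have ha0 : 1 - 2 * y + ((a * d : kˣ) : k) * y ^ 2 * κ ^ 2 ≠ 0 := by
    intro h0
    have h3 := hzv v₁ hS₁
    rw [h0, map_zero] at h3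
    exact (Valuation.ne_zero_iff _).mpr (z v₁).ne_zero h3.symm
  obtain ⟨a', ha'⟩ : ∃ a' : kˣ, (a' : k) = 1 - 2 * y + ((a * d : kˣ) : k) * y ^ 2 * κ ^ 2 :=
    ⟨Units.mk0 _ ha0, rfl⟩
  have hy0 : y ≠ 0 := by
    rintro rfl
    have h3 := (key v₁ hS₁).2.1
    rw [mul_zero, map_zero] at h3
    exact not_lt_zero h3
  rw [← ha'] at ha0
  simp only [← ha'] at key hzv
  have hLS : ∀ v ∈ S, a' / z v ∈ LS (v.valuation k) := fun v hv => mem_of_near (key v hv).2.2
  have hcl : ∀ v ∈ S, ∀ c : kˣ, c * z v ∉ LS (v.valuation k) → c * a' ∉ LS (v.valuation k) := by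
    intro v hv c hc h
    apply hc
    have h3 := (LS (v.valuation k)).div_mem h (hLS v hv)
    have h4 : c * a' / (a' / z v) = c * z v := by
      rw [mul_div_assoc, div_div_cancel]
    rwa [h4] at h3
  have hne₂ : ∀ v ∈ S, v ≠ v₂ → a' ∉ LS (v.valuation k) ∧ a * a' ∉ LS (v.valuation k) := by
    intro v hv hne
    have h3 := hz1 v
    have h4 := hz2 v
    rw [if_neg hne, mul_one] at h3 h4
    have h5 := hcl v hv 1 (by rwa [one_mul])
    rw [one_mul] at h5
    exact ⟨h5, hcl v hv a h4⟩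
  refine ⟨y, a', hy0, by rw [ha', Units.val_mul], fun v hv => ?_, fun v hv => ?_, fun v hv => ?_,
    fun φ => ?_, fun L _ _ _ T hL hT => ?_, fun v hv F _ _ _ σ hσ w hw => ?_⟩
  · refine hne₂ v (by rw [hSd]; exact Or.inl hv) ?_
    rintro rfl
    exact hv₂R hv
  · have h3 := (LS (v.valuation k)).mul_mem (hLS v (by rw [hSd]; exact Or.inl hv)) (hz5 v hv)
    rwa [div_mul_div_cancel] at h3
  · apply LS_of_close
    rw [ha']
    exact hδ' v y (hyN v hv)
  · have h3 : |φ y| < ε φ := by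
      have h4 := (hy2 φ).trans_le (hmin φ)
      rwa [map_zero, sub_zero] at h4
    refine ⟨?_, ?_⟩
    · have h4 := hy φ (φ y) h3
      have h5 : φ a' = 1 - 2 * φ y + φ (a * d * κ ^ 2) * φ y ^ 2 := by
        rw [ha', Units.val_mul]
        simp only [map_add, map_sub, map_mul, map_pow, map_one, map_ofNat]
        ring
      rw [h5]
      exact h4
    · exact (lt_of_abs_lt h3).trans_le (hε1 φ)
  · have hT2 : T ^ 2 = algebraMap k L a := by rw [sq, hT]
    have hns : ∀ (v : HeightOneSpectrum (𝓞 k)) (u : kˣ), u ∉ LS (v.valuation k) →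
        a * u ∉ LS (v.valuation k) → ¬ IsSquare (algebraMap k L (u : k)) := by
      intro v u h3 h4 h5
      obtain ⟨w, hw⟩ := exists_above (F := k) (E := L) v
      refine ls_desc hL ha hT2 hw h3 h4 ?_
      exact Sq_le_LS _ (mem_Sq_iff.mpr h5)
    refine ⟨?_, ?_⟩
    · obtain ⟨h3, h4⟩ := hne₂ v₁ hS₁ (Ne.symm hv₂₁)
      exact hns v₁ a' h3 h4
    · have h3 := hz1 v₂
      have h4 := hz2 v₂
      rw [if_pos rfl] at h3 h4
      have h5 := hcl v₂ hS₂ d (by rwa [mul_comm])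
      have h6 := hcl v₂ hS₂ (a * d) (by rwa [mul_assoc, mul_comm d])
      refine hns v₂ (a' * d) (by rwa [mul_comm]) ?_
      rwa [mul_comm a' d, ← mul_assoc]
  · have hvS : v ∈ S := by rw [hSd]; exact Or.inl hv
    refine torus_est hσ ha' hy0 hw ?_ (key v hvS).2.1
    rw [hzv v hvS]
    exact hz3 v

end places

end Vale.Agent.P011.Tpl.H359
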