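import Vale.Agent.P011.Tpl.H359.StepDefs
import Vale.Agent.P011.Tpl.H359.DownT
import Vale.Agent.P011.Tpl.H359.Card
import Vale.Agent.P011.Tpl.H359.Vn

/-!
The induction on the degree.
-/

open Module NumberField IsDedekindDomain Topology

set_option linter.unusedSectionVars false

namespace Vale.Agent.P011.Tpl.H359

open Vale.Agent.P011.Arith Vale.Agent.P011.Even Vale.Agent.P011.Two Vale.Agent.P011.One
open Vale.Agent.P011.Pow hiding exists_x2 nrd_near exists_numbers

/-- The residue fields at the places at which `D` remains a division algebra satisfy `P`. -/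
def GoodP (P : ℕ → Prop) (k K D : Type) [Field k] [NumberField k] [Field K] [DivisionRing D]
    [Algebra k K] [Algebra K D] : Prop :=
  ∀ v ∈ Adiv k K D, P (Nat.card (𝓞 k ⧸ v.asIdeal))

theorem adiv_iff' {k K D : Type} [Field k] [NumberField k] [Field K] [DivisionRing D]
    [Algebra k K] [Algebra K D] {v : HeightOneSpectrum (𝓞 k)} :
    v ∈ Adiv k K D ↔ (Sum.inl v : Pl k) ∈ Tdiv k K D := by
  constructor
  · rintro ⟨φ, h⟩
    exact ⟨v, rfl, φ, h⟩
  · rintro ⟨v', hv', φ, h⟩
    obtain rfl := Sum.inl_injective hv'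
    exact ⟨φ, h⟩

section good

variable {k K D L K' C : Type} [Field k] [NumberField k] [Field K] [NumberField K] [StarRing K]
  [DivisionRing D] [StarRing D] [Algebra k K] [Algebra k D] [Algebra K D] [IsScalarTower k K D]
  {d : kˣ} {s : K}
  [Field L] [NumberField L] [Algebra k L] [Field K'] [StarRing K']
  [NumberField K'] [Algebra K K'] [DivisionRing C] [StarRing C] [Algebra L K'] [Algebra L C]
  [Algebra K' C] [IsScalarTower L K' C] {T : L} {j : C →+* D} {t : D} {a : kˣ}

/-- **The condition on the residue fields is inherited by the centralizer.** -/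
theorem good_cent {P : ℕ → Prop} (h : IsCent k K D L K' C t a T j) (hS : Setting k K D d s)
    (hS' : Setting L K' C (inc k L d) (algebraMap K K' s)) {m : ℕ} (hm : Even m) (hm2 : 2 ≤ m)
    (hdeg : finrank K D = (2 * m) ^ 2) (hC : finrank K' C = m ^ 2)
    (ha : ∀ v ∈ Ram k K D (2 * m), a ∉ LS (v.valuation k))
    (hodd : ∀ v ∈ Adiv k K D, Odd (WithZero.log (v.valuation k (a : k))))
    (hG : GoodP P k K D) : GoodP P L K' C := by
  intro w' hw'
  rw [adiv_iff'] at hw'
  obtain ⟨v, hv, hwv, -⟩ := h.tdiv_over hS hS' hm2 hC hw'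
  have h1 : v ∈ Adiv k K D :=
    adiv_iff'.mpr (tdiv_down h hS hS' hm hm2 hdeg hC hw' hwv (ha v hv))
  rw [card_eq_of_odd h.rkL h.sqT hwv (hodd v h1)]
  exact hG v h1

end good

/-- The parity of the valuation of a local square. -/
theorem even_log_of_LS {k : Type} [Field k] [NumberField k] {v : HeightOneSpectrum (𝓞 k)} {x : kˣ}
    (hx : x ∈ LS (v.valuation k)) : Even (WithZero.log (v.valuation k (x : k))) := by
  obtain ⟨y, hy⟩ := Arith.LS_even hx
  rw [hy, WithZero.log_pow]
  exact ⟨WithZero.log (v.valuation k (y : k)), by rw [two_nsmul]⟩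

theorem log_mul' {k : Type} [Field k] [NumberField k] (v : HeightOneSpectrum (𝓞 k)) (x y : kˣ) :
    WithZero.log (v.valuation k ((x * y : kˣ) : k)) =
      WithZero.log (v.valuation k (x : k)) + WithZero.log (v.valuation k (y : k)) := by
  rw [Units.val_mul, map_mul, WithZero.log_mul ((Valuation.ne_zero_iff _).mpr x.ne_zero)
    ((Valuation.ne_zero_iff _).mpr y.ne_zero)]

/-- A class of odd valuation. -/
theorem exists_class_odd {k : Type} [Field k] [NumberField k] (v : HeightOneSpectrum (𝓞 k))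
    (a : kˣ) : ∃ c : kˣ, c ∉ LS (v.valuation k) ∧ a * c ∉ LS (v.valuation k) ∧
      (Odd (WithZero.log (v.valuation k (a : k))) → Odd (WithZero.log (v.valuation k (c : k)))) := by
  obtain ⟨c, h1, h2⟩ := exists_class v a
  rcases Int.even_or_odd (WithZero.log (v.valuation k (c : k))) with hc | hc
  · refine ⟨a * c, h2, ?_, fun ha => ?_⟩
    · rw [← mul_assoc, ← sq]
      intro h
      exact h1 ((Subgroup.mul_mem_cancel_left _ (sq_mem_LS _)).mp h)
    · rw [log_mul']
      exact ha.add_even hc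
  · exact ⟨c, h1, h2, fun _ => hc⟩

/-- **The induction step.** -/
theorem mp_step {P : ℕ → Prop} {l : ℕ} (hl2 : 2 ≤ l)
    (hIH : ∀ (k K D : Type) [Field k] [NumberField k] [Field K] [NumberField K] [StarRing K]
      [DivisionRing D] [StarRing D] [Algebra k K] [Algebra k D] [Algebra K D] [IsScalarTower k K D]
      (d : kˣ) (s : K), Setting k K D d s → finrank K D = (2 * l) ^ 2 → Sgd K D (2 * l) →
      GoodP P k K D → MPat k K D (2 * l))
    (hT : StepT (2 * l)) (hSs : StepS (2 * l))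
    {k K D : Type} [Field k] [NumberField k] [Field K] [NumberField K] [StarRing K]
    [DivisionRing D] [StarRing D] [Algebra k K] [Algebra k D] [Algebra K D] [IsScalarTower k K D]
    {d : kˣ} {s : K} (hS : Setting k K D d s) (hdeg : finrank K D = (2 * (2 * l)) ^ 2)
    (hsg : Sgd K D (2 * (2 * l))) (hG : GoodP P k K D) : MPat k K D (2 * (2 * l)) := by
  intro Ω _ _ f M B N _ hi
  obtain ⟨a, t, ht, ha, had, haR, hre1, hre2, haA, hsC⟩ := hT k K D d s hS hdeg hsg
  have hR := fun (v : HeightOneSpectrum (𝓞 k)) => haR v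
  choose c hc1 hc2 hc3 using fun v : HeightOneSpectrum (𝓞 k) => exists_class_odd v a
  refine pf_of_abAt hS (by omega) hdeg f B ht N hi ?_
  refine ab_gen hl2 hS hdeg ht ha had hre2 c (fun v _ => ⟨hc1 v, hc2 v⟩) ?_ f B N hi
  intro L K' C _ _ _ _ _ _ _ _ _ _ _ _ _ T j hSC hdC h
  have hsC' : Sgd K' C (2 * l) := hsC L K' C T j hSC hdC h
  refine ⟨hIH L K' C _ _ hSC hdC hsC' (good_cent h hS hSC (even_two_mul l) (by omega) hdeg hdC haR
    haA hG), ?_⟩
  obtain ⟨N0, hN0, hdis, hs⟩ := hSs k K D d s hS hdeg hsg a t ht ha had hre1 hre2 L K' C T j hSC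
    hdC h hsC'
  refine ⟨N0, hN0, hdis, fun b hb hbd hbre hbN hbR => ?_⟩
  obtain ⟨s₂, hs₂, hE⟩ := hs b hb hbd hbre hbN fun v hv => ⟨(hbR v hv).1, (hbR v hv).2.1⟩
  refine ⟨s₂, hs₂, ?_⟩
  intro F F' E _ _ _ _ _ _ _ _ _ _ _ _ _ S jE hSE hdE hcE
  refine hIH F F' E _ _ hSE hdE (hE F F' E S jE hSE hdE hcE) (good_cent hcE hS hSE
    (even_two_mul l) (by omega) hdeg hdE (fun v hv => (hbR v hv).1) (fun v hv => ?_) hG)
  have hv' : v ∈ Ram k K D (2 * (2 * l)) := by
    have := hS.fin
    exact tdiv_ram (by omega) hdeg (adiv_iff'.mp hv)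
  have h1 := even_log_of_LS (hbR v hv').2.2
  have h2 : Odd (WithZero.log (v.valuation k (c v : k))) := hc3 v (haA v hv)
  have h3 : b = b / c v * c v := by rw [div_mul_cancel]
  rw [h3, log_mul']
  exact h1.add_odd h2

/-- **The induction.** -/
theorem mp_ind {P : ℕ → Prop} {l₀ : ℕ} (hl2 : 2 ≤ l₀)
    (hbase : ∀ (k K D : Type) [Field k] [NumberField k] [Field K] [NumberField K] [StarRing K]
      [DivisionRing D] [StarRing D] [Algebra k K] [Algebra k D] [Algebra K D] [IsScalarTower k K D]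
      (d : kˣ) (s : K), Setting k K D d s → finrank K D = (2 * l₀) ^ 2 → Sgd K D (2 * l₀) →
      GoodP P k K D → MPat k K D (2 * l₀))
    (hT : ∀ e, StepT (2 * (l₀ * 2 ^ e))) (hSs : ∀ e, StepS (2 * (l₀ * 2 ^ e))) (e : ℕ) :
    ∀ (k K D : Type) [Field k] [NumberField k] [Field K] [NumberField K] [StarRing K]
      [DivisionRing D] [StarRing D] [Algebra k K] [Algebra k D] [Algebra K D] [IsScalarTower k K D]
      (d : kˣ) (s : K), Setting k K D d s → finrank K D = (2 * (l₀ * 2 ^ e)) ^ 2 →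
      Sgd K D (2 * (l₀ * 2 ^ e)) → GoodP P k K D → MPat k K D (2 * (l₀ * 2 ^ e)) := by
  induction e with
  | zero =>
    rw [pow_zero, mul_one]
    exact hbase
  | succ e ih =>
    have h2 : 2 ≤ l₀ * 2 ^ e := hl2.trans (Nat.le_mul_of_pos_right _ (by positivity))
    have h3 : 2 * (l₀ * 2 ^ (e + 1)) = 2 * (2 * (l₀ * 2 ^ e)) := by
      rw [pow_succ]
      ring
    rw [h3]
    intro k K D _ _ _ _ _ _ _ _ _ _ _ d s hS hdeg hsg hG
    exact mp_step h2 ih (hT e) (hSs e) hS hdeg hsg hG

end Vale.Agent.P011.Tpl.H359
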